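import Vale.Agent.P092.H678.Ex
import Vale.Agent.P092.SR.St

/-!
P092 (helper678): `SL_N(F[t,1/t])` is a `PadicProductLattice` (letters of `SR/St.lean`).
-/

set_option linter.all false

open Topology Filter Set

namespace Vale.Agent.P092.H678

open Vale.Agent.P092.SR.St

theorem irrLattice_emb (N : ℕ) (F : Type) [Field F] [Finite F] (hN : 2 ≤ N) :
    IrrLattice (emb N F) where
  inj := emb_injective
  lat := isLattice_Gam N F hN
  dense₁ := by
    refine (dense_fst (N := N) (F := F) hN).mono ?_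
    rintro _ ⟨⟨_, γ, rfl⟩, rfl⟩
    exact ⟨γ, rfl⟩
  dense₂ := by
    refine (dense_snd (N := N) (F := F) hN).mono ?_
    rintro _ ⟨⟨_, γ, rfl⟩, rfl⟩
    exact ⟨γ, rfl⟩

/-- `SL_N(F[t,1/t])`, `F` a finite field, `gcd(N, |F| - 1) = 1`, `N ≥ 2`. -/
theorem padic_SL (N : ℕ) (F : Type) [Field F] [Finite F] (hN : 2 ≤ N)
    (hc : Nat.Coprime N (Nat.card F - 1)) :
    PadicProductLattice (Matrix.SpecialLinearGroup (Fin N) (LaurentPolynomial F)) :=
  ⟨icc_SL hN hc, LS F, LS F, inferInstance, inferInstance, N, N, emb N F, inferInstance,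
    inferInstance, inferInstance, inferInstance, hN, hN, irrLattice_emb N F hN⟩

/-- `SL_N(𝔽_2[t,1/t])`, `N ≥ 2`, as in `Final1`, `FinalAll`. -/
theorem padic_SL_two (N : ℕ) (hN : 2 ≤ N) :
    PadicProductLattice (Matrix.SpecialLinearGroup (Fin N) (LaurentPolynomial (ZMod 2))) :=
  padic_SL N (ZMod 2) hN (coprime_two N)

end Vale.Agent.P092.H678
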