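import Mathlib

/-!
P092 (helper678), block B-CLASS: the commutator subgroup of an open subgroup is open, by Baire
category.
-/

set_option autoImplicit false
set_option linter.all false

namespace Vale.Agent.P092.H678.BC

open Topology Pointwise
open scoped commutatorElement

variable {G : Type*} [Group G] [TopologicalSpace G] [IsTopologicalGroup G]

/-- `S` is a finite union of compact sets contained in left cosets of `D`. -/
def Sm (D : Subgroup G) (S : Set G) : Prop :=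
  ∃ F : Set (Set G), F.Finite ∧
    (∀ C ∈ F, IsCompact C ∧ C ⊆ S ∧ ∀ x ∈ C, ∀ y ∈ C, x⁻¹ * y ∈ D) ∧ S ⊆ ⋃₀ F

/-- The elements all of whose conjugates by `B` are in `V`. -/
def cv (B : Set G) (V : Subgroup G) : Subgroup G where
  carrier := {g | ∀ b ∈ B, b⁻¹ * g * b ∈ V}
  one_mem' := fun b _ => by
    have : b⁻¹ * 1 * b = 1 := by group
    rw [this]; exact V.one_mem
  mul_mem' := fun {x y} hx hy b hb => by
    have : b⁻¹ * (x * y) * b = (b⁻¹ * x * b) * (b⁻¹ * y * b) := by group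
    rw [this]; exact V.mul_mem (hx b hb) (hy b hb)
  inv_mem' := fun {x} hx b hb => by
    have : b⁻¹ * x⁻¹ * b = (b⁻¹ * x * b)⁻¹ := by group
    rw [this]; exact V.inv_mem (hx b hb)

theorem mem_cv {B : Set G} {V : Subgroup G} {g : G} :
    g ∈ cv B V ↔ ∀ b ∈ B, b⁻¹ * g * b ∈ V := Iff.rfl

theorem isOpen_cv {B : Set G} (hB : IsCompact B) {V : Subgroup G} (hV : IsOpen (V : Set G)) :
    IsOpen (cv B V : Set G) := by
  have h : ∀ᶠ g in 𝓝 (1 : G), ∀ b ∈ B, b⁻¹ * g * b ∈ V := by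
    refine hB.eventually_forall_of_forall_eventually fun b _ => ?_
    have hc : Continuous fun z : G × G => z.2⁻¹ * z.1 * z.2 := by fun_prop
    have h1 : (fun z : G × G => z.2⁻¹ * z.1 * z.2) (1, b) ∈ (V : Set G) := by
      simp [V.one_mem]
    exact hc.continuousAt.eventually (hV.mem_nhds h1)
  exact Subgroup.isOpen_of_mem_nhds _ (g := 1) h

theorem conj_commutator {B : Set G} {V : Subgroup G} {b : G} (hb : b ∈ B) {d : G}
    (hd : d ∈ ⁅cv B V, cv B V⁆) : b⁻¹ * d * b ∈ ⁅V, V⁆ := by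
  have h : ⁅cv B V, cv B V⁆ ≤ (⁅V, V⁆ : Subgroup G).comap (MulAut.conj b⁻¹).toMonoidHom := by
    rw [Subgroup.commutator_le]
    intro x hx y hy
    rw [Subgroup.mem_comap]
    have e : (MulAut.conj b⁻¹).toMonoidHom ⁅x, y⁆ = ⁅b⁻¹ * x * b, b⁻¹ * y * b⁆ := by
      simp only [MulEquiv.toMonoidHom_eq_coe, MonoidHom.coe_coe, MulAut.conj_apply, inv_inv,
        commutatorElement_def]
      group
    rw [e]
    exact Subgroup.commutator_mem_commutator (hx b hb) (hy b hb)
  have h1 := h hd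
  rw [Subgroup.mem_comap] at h1
  simpa [MulAut.conj_apply] using h1

theorem Sm.mul {S B : Set G} (hB : IsCompact B) {V : Subgroup G}
    (h1 : Sm (⁅cv B V, cv B V⁆) S) (h2 : Sm (⁅V, V⁆) B) : Sm (⁅V, V⁆) (S * B) := by
  obtain ⟨F, hF, hF1, hF2⟩ := h1
  obtain ⟨F', hF', hF1', hF2'⟩ := h2
  refine ⟨Set.image2 (fun C P => C * P) F F', hF.image2 _ hF', ?_, ?_⟩
  · rintro _ ⟨C, hC, P, hP, rfl⟩
    obtain ⟨a1, a2, a3⟩ := hF1 C hC
    obtain ⟨b1, b2, b3⟩ := hF1' P hP
    refine ⟨a1.mul b1, Set.mul_subset_mul a2 b2, ?_⟩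
    rintro _ ⟨c, hc, y, hy, rfl⟩ _ ⟨c', hc', y', hy', rfl⟩
    have e : (c * y)⁻¹ * (c' * y') = (y⁻¹ * (c⁻¹ * c') * y) * (y⁻¹ * y') := by group
    change (c * y)⁻¹ * (c' * y') ∈ _
    rw [e]
    exact mul_mem (conj_commutator (b2 hy) (a3 c hc c' hc')) (b3 y hy y' hy')
  · rintro _ ⟨c, hc, y, hy, rfl⟩
    obtain ⟨C, hC, hcC⟩ := hF2 hc
    obtain ⟨P, hP, hyP⟩ := hF2' hy
    exact ⟨C * P, ⟨C, hC, P, hP, rfl⟩, Set.mul_mem_mul hcC hyP⟩

theorem sm_word {ι : Type*} {T : ι → Set G} (hT : ∀ i, IsCompact (T i))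
    (hloc : ∀ i (V : Subgroup G), IsOpen (V : Set G) → Sm (⁅V, V⁆) (T i)) :
    ∀ (l : List ι) (V : Subgroup G), IsOpen (V : Set G) →
      Sm (⁅V, V⁆) ((l.map T).prod) := by
  intro l
  induction l using List.reverseRecOn with
  | nil =>
    intro V _
    refine ⟨{1}, Set.finite_singleton _, ?_, ?_⟩
    · rintro C rfl
      refine ⟨isCompact_singleton, ?_, ?_⟩
      · simp
      · intro x hx y hy
        rw [Set.mem_one] at hx hy
        subst hx; subst hy
        simp [Subgroup.one_mem]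
    · simp
  | append_singleton l i ih =>
    intro V hV
    rw [List.map_append, List.prod_append, List.map_singleton, List.prod_singleton]
    exact Sm.mul (hT i) (ih _ (isOpen_cv (hT i) hV)) (hloc i V hV)

/-- **The commutator subgroup of an open subgroup is open.** -/
theorem isOpen_commutator [T2Space G] [BaireSpace G] {ι : Type*} [Countable ι] {T : ι → Set G}
    (hT : ∀ i, IsCompact (T i)) (hsym : ∀ i, ∀ x ∈ T i, x⁻¹ ∈ T i)
    (hgen : Subgroup.closure (⋃ i, T i) = ⊤)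
    (hloc : ∀ i (V : Subgroup G), IsOpen (V : Set G) → Sm (⁅V, V⁆) (T i))
    (V : Subgroup G) (hV : IsOpen (V : Set G)) : IsOpen ((⁅V, V⁆ : Subgroup G) : Set G) := by
  have hw := fun l => sm_word hT hloc l V hV
  choose F hF hF1 hF2 using hw
  have hcov : ∀ g : G, ∃ l : List ι, g ∈ (l.map T).prod := by
    intro g
    have hg : g ∈ (Subgroup.closure (⋃ i, T i)).toSubmonoid := by rw [hgen]; trivial
    rw [Subgroup.closure_toSubmonoid] at hg
    have hs : (⋃ i, T i) ∪ (⋃ i, T i)⁻¹ = ⋃ i, T i := by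
      refine Set.union_eq_self_of_subset_right fun x hx => ?_
      obtain ⟨i, hi⟩ := Set.mem_iUnion.1 (Set.mem_inv.1 hx)
      exact Set.mem_iUnion.2 ⟨i, by simpa using hsym i _ hi⟩
    rw [hs] at hg
    obtain ⟨l, hl, rfl⟩ := Submonoid.exists_list_of_mem_closure hg
    clear hg
    induction l with
    | nil => exact ⟨[], by simp⟩
    | cons a l ih =>
      obtain ⟨l', hl'⟩ := ih (fun y hy => hl y (List.mem_cons_of_mem _ hy))
      obtain ⟨i, hi⟩ := Set.mem_iUnion.1 (hl a List.mem_cons_self)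
      refine ⟨i :: l', ?_⟩
      rw [List.prod_cons, List.map_cons, List.prod_cons]
      exact Set.mul_mem_mul hi hl'
  haveI : Countable (⋃ l, F l) := (Set.countable_iUnion fun l => (hF l).countable).to_subtype
  obtain ⟨⟨C, hC⟩, hCi⟩ := nonempty_interior_of_iUnion_of_closed (X := G)
    (f := fun s : ⋃ l, F l => s.1)
    (fun s => by
      obtain ⟨l, hl⟩ := Set.mem_iUnion.1 s.2
      exact (hF1 l s.1 hl).1.isClosed)
    (by
      refine Set.eq_univ_of_forall fun g => ?_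
      obtain ⟨l, hl⟩ := hcov g
      obtain ⟨C, hC, hgC⟩ := hF2 l hl
      exact Set.mem_iUnion.2 ⟨⟨C, Set.mem_iUnion.2 ⟨l, hC⟩⟩, hgC⟩)
  obtain ⟨x, hx⟩ := hCi
  obtain ⟨l, hl⟩ := Set.mem_iUnion.1 hC
  have hxC : x ∈ C := interior_subset hx
  have h1 : (fun y => x * y) ⁻¹' (interior C) ∈ 𝓝 (1 : G) := by
    refine (isOpen_interior.preimage (continuous_const_mul x)).mem_nhds ?_
    simpa using hx
  refine Subgroup.isOpen_of_mem_nhds _ (g := 1) (Filter.mem_of_superset h1 fun y hy => ?_)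
  have h2 : x * y ∈ C := interior_subset hy
  have h3 := (hF1 l C hl).2.2 x hxC (x * y) h2
  rwa [inv_mul_cancel_left] at h3

end Vale.Agent.P092.H678.BC
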