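import Vale.Agent.P092.H714.Cl2

/-!
P092 (helper678), block B-CLASS: the group generated by the transvections is generated by finitely
many root groups.
-/

set_option autoImplicit false
set_option linter.all false

open Matrix

namespace Vale.Agent.P092.H678.Gen

open Vale.Agent.P092.H303 (FormGroup)
open Vale.Agent.P092.H714.Cl

variable {n : Type} [Fintype n] [DecidableEq n] {k : Type} [Field k]
  {σ : k →+* k} {ε : k} {J : Matrix n n k}

/-- The root group of `u` is contained in `H`. -/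
def Tin (σ : k →+* k) (ε : k) (J : Matrix n n k) (H : Subgroup (SpecialLinearGroup n k))
    (u : n → k) : Prop := hf σ J u u = 0 ∧ ∀ c, c + ε * σ c = 0 → tv σ J u c ∈ H

section

variable {H : Subgroup (SpecialLinearGroup n k)}

theorem Tin.map (hH : H ≤ FormGroup σ J) {u : n → k} (hu : Tin σ ε J H u)
    {g : SpecialLinearGroup n k} (hg : g ∈ H) : Tin σ ε J H (u ᵥ* g.1) :=
  ⟨iso_vecMul (hH hg) hu.1, fun c hc => by
    rw [← conj_tv (hH hg) hu.1]
    exact mul_mem (mul_mem (inv_mem hg) (hu.2 c hc)) hg⟩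

theorem Tin.smul (hF : Frm σ ε J) {u : n → k} (hu : Tin σ ε J H u) (a : k) :
    Tin σ ε J H (a • u) :=
  ⟨iso_smul hu.1 a, fun c hc => by
    rw [tv_smul hu.1]
    exact hu.2 _ (cc_smul hF.inv hc a)⟩

theorem dv_mem_of (hF : Frm σ ε J) {u w : n → k} (hu : Tin σ ε J H u) (hw : Tin σ ε J H w)
    {s r : k} (hs0 : s ≠ 0) (hs : s + ε * σ s = 0) (hr0 : r ≠ 0) (hr : σ r = r) :
    dv σ ε J u w s r ∈ H := by
  have h4 : -(r * s) + ε * σ (-(r * s)) = 0 := by
    have := cc_fix (r := -r) (by rw [map_neg, hr]) hs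
    rwa [neg_mul] at this
  exact mul_mem (mul_mem (mul_mem (hu.2 _ (cc_x hF hs0 hs hr)) (hw.2 _ hs))
    (hu.2 _ (cc_z hF hs0 hs hr0 hr))) (hw.2 _ h4)

theorem Tin.shift (hF : Frm σ ε J) (hH : H ≤ FormGroup σ J) {e x : n → k}
    (he : Tin σ ε J H e) (hx : Tin σ ε J H x) (h1 : hf σ J e x = 1) {γ : k}
    (hγ : hf σ J (x + γ • e) (x + γ • e) = 0) : Tin σ ε J H (x + γ • e) := by
  have hxe := hF.swap h1
  have h2 : γ + ε * σ γ = 0 := by
    rw [hf_add_left, hf_add_right, hf_add_right, hf_smul_left, hf_smul_left, hf_smul_right,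
      hf_smul_right, hx.1, he.1, h1, hxe] at hγ
    linear_combination hγ
  have h3 : ε * γ + ε * σ (ε * γ) = 0 := by
    rw [map_mul, hF.seps]
    linear_combination ε * h2
  have h4 := hx.map hH (he.2 _ h3)
  rw [vecMul_tv he.1, hxe] at h4
  have h5 : ε * γ * ε = γ := by linear_combination γ * hF.eps
  rwa [h5] at h4

theorem Tin.line (hF : Frm σ ε J) (hH : H ≤ FormGroup σ J) {e x y : n → k}
    (he : Tin σ ε J H e) (hx : Tin σ ε J H x) (hy : Tin σ ε J H y) (h1 : hf σ J e x = 1)
    (h2 : hf σ J e y = 1) {s γ : k} (hs0 : s ≠ 0) (hs : σ s = s)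
    (hγ : hf σ J (x + s • (y - x) + γ • e) (x + s • (y - x) + γ • e) = 0) :
    Tin σ ε J H (x + s • (y - x) + γ • e) := by
  obtain ⟨s0, hs00, hs0'⟩ := hF.cc
  have hr0 : s⁻¹ ≠ 0 := inv_ne_zero hs0
  have hr : σ s⁻¹ = s⁻¹ := by rw [map_inv₀, hs]
  have hxe := hF.swap h1
  have hye := hF.swap h2
  set D := dv σ ε J e x s0 s⁻¹ with hD
  have hDH : D ∈ H := dv_mem_of hF he hx hs00 hs0' hr0 hr
  set ζ : k := hf σ J (y - x) x with hζ
  have hsub : ∀ a b c : n → k, hf σ J (a - b) c = hf σ J a c - hf σ J b c := fun a b c => by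
    rw [sub_eq_add_neg, ← neg_one_smul k b, hf_add_left, hf_smul_left]; ring
  have hz1 : hf σ J ((y - x) - ζ • e) e = 0 := by
    rw [hsub, hsub, hf_smul_left, he.1, hxe, hye]; ring
  have hz2 : hf σ J ((y - x) - ζ • e) x = 0 := by
    rw [hsub, hf_smul_left, h1, ← hζ]; ring
  have e1 : e ᵥ* D.1 = s⁻¹⁻¹ • e := u_dv hF he.1 hx.1 h1 hs00 hr0
  have e2 : x ᵥ* D.1 = s⁻¹ • x := w_dv hF he.1 hx.1 h1 hs00 hr0
  have e3 : ((y - x) - ζ • e) ᵥ* D.1 = (y - x) - ζ • e := y_dv he.1 hx.1 hz1 hz2
  have e4 : y = x + ((y - x) - ζ • e) + ζ • e := by abel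
  have e5 : y ᵥ* D.1 = s⁻¹ • x + ((y - x) - ζ • e) + ζ • (s • e) := by
    have : y ᵥ* D.1 = (x + ((y - x) - ζ • e) + ζ • e) ᵥ* D.1 := by rw [← e4]
    rw [this, add_vecMul, add_vecMul, smul_vecMul, e1, e2, e3, inv_inv]
  have e6 : s • (y ᵥ* D.1) = x + s • (y - x) + (s * (ζ * (s - 1))) • e := by
    rw [e5, smul_add, smul_add, smul_smul, mul_inv_cancel₀ hs0, one_smul]
    module
  have h3 : Tin σ ε J H (s • (y ᵥ* D.1)) := (hy.map hH hDH).smul hF s
  rw [e6] at h3
  have h4 : hf σ J e (x + s • (y - x) + (s * (ζ * (s - 1))) • e) = 1 := by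
    have : hf σ J e (y - x) = 0 := by
      rw [sub_eq_add_neg, ← neg_one_smul k x, hf_add_right, hf_smul_right, h1, h2, map_neg,
        map_one]
      ring
    rw [hf_add_right, hf_add_right, hf_smul_right, hf_smul_right, he.1, this, h1]
    ring
  have e7 : x + s • (y - x) + γ • e =
      (x + s • (y - x) + (s * (ζ * (s - 1))) • e) + (γ - s * (ζ * (s - 1))) • e := by
    module
  rw [e7] at hγ ⊢
  exact he.shift hF hH h3 h4 hγ

/-- The class of `v` modulo `e` is good. -/
def Good (σ : k →+* k) (ε : k) (J : Matrix n n k) (H : Subgroup (SpecialLinearGroup n k))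
    (e v : n → k) : Prop := hf σ J e v = 1 ∧ ∃ γ : k, Tin σ ε J H (v + γ • e)

theorem Good.tin (hF : Frm σ ε J) (hH : H ≤ FormGroup σ J) {e v : n → k}
    (he : Tin σ ε J H e) (hv : Good σ ε J H e v) (h : hf σ J v v = 0) : Tin σ ε J H v := by
  obtain ⟨h1, γ, hγ⟩ := hv
  have e1 : v = (v + γ • e) + (-γ) • e := by module
  rw [e1]
  refine he.shift hF hH hγ ?_ (by rw [← e1]; exact h)
  rw [hf_add_right, hf_smul_right, he.1, h1]; ring

theorem Good.line (hF : Frm σ ε J) (hH : H ≤ FormGroup σ J) {e v w : n → k}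
    (he : Tin σ ε J H e) (hv : Good σ ε J H e v) (hw : Good σ ε J H e w) {s : k}
    (hs : σ s = s) : Good σ ε J H e (v + s • (w - v)) := by
  by_cases hs0 : s = 0
  · subst hs0
    rwa [zero_smul, add_zero]
  obtain ⟨h1, γ1, hγ1⟩ := hv
  obtain ⟨h2, γ2, hγ2⟩ := hw
  have h0 : hf σ J e (w - v) = 0 := by
    rw [sub_eq_add_neg, ← neg_one_smul k v, hf_add_right, hf_smul_right, h1, h2, map_neg,
      map_one]
    ring
  have h3 : hf σ J e (v + s • (w - v)) = 1 := by
    rw [hf_add_right, hf_smul_right, h0, h1]; ring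
  refine ⟨h3, ?_⟩
  obtain ⟨γ0, hγ0⟩ := hF.exists_corr he.1 (y := v + s • (w - v)) (by rw [h3]; exact one_ne_zero)
  refine ⟨γ0, ?_⟩
  have e1 : v + s • (w - v) + γ0 • e = (v + γ1 • e) + s • ((w + γ2 • e) - (v + γ1 • e)) +
      (γ0 - γ1 - s * (γ2 - γ1)) • e := by module
  rw [e1] at hγ0 ⊢
  exact he.line hF hH hγ1 hγ2 (by rw [hf_add_right, hf_smul_right, he.1, h1]; ring)
    (by rw [hf_add_right, hf_smul_right, he.1, h2]; ring) hs0 hs hγ0

theorem Good.add_aux (hF : Frm σ ε J) (hH : H ≤ FormGroup σ J) {e f v w : n → k}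
    (he : Tin σ ε J H e) (hf' : Good σ ε J H e f) (hv : Good σ ε J H e v)
    (hw : Good σ ε J H e w) {a : k} (ha : σ a = a) (ha1 : 1 + a ≠ 0) :
    Good σ ε J H e (v + a • (w - f)) := by
  have hs : σ (a / (1 + a)) = a / (1 + a) := by rw [map_div₀, map_add, map_one, ha]
  have ht : σ (1 + a) = 1 + a := by rw [map_add, map_one, ha]
  have h1 := Good.line hF hH he hf' (Good.line hF hH he hv hw hs) ht
  have e1 : v + a • (w - f) = f + (1 + a) • ((v + (a / (1 + a)) • (w - v)) - f) := by
    have e2 : (1 + a) • ((a / (1 + a)) • (w - v)) = a • (w - v) := by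
      rw [smul_smul, mul_div_cancel₀ _ ha1]
    have e3 : (1 + a) • ((v + (a / (1 + a)) • (w - v)) - f) =
        (1 + a) • v + (1 + a) • (a / (1 + a)) • (w - v) - (1 + a) • f := by
      rw [smul_sub, smul_add]
    rw [e3, e2]
    module
  rwa [e1]

theorem Good.add (hF : Frm σ ε J) (hH : H ≤ FormGroup σ J) {b : k} (hb : σ b = b)
    (hb0 : b ≠ 0) (hb1 : 1 + b ≠ 0) {e f v w : n → k}
    (he : Tin σ ε J H e) (hf' : Good σ ε J H e f) (hv : Good σ ε J H e v)
    (hw : Good σ ε J H e w) {a : k} (ha : σ a = a) :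
    Good σ ε J H e (v + a • (w - f)) := by
  by_cases ha1 : 1 + a = 0
  · have h1 := Good.add_aux hF hH he hf' hv hw hb hb1
    have h2 := Good.add_aux hF hH he hf' h1 hw (a := -1 - b) (by
      rw [map_sub, map_neg, map_one, hb]) (by
      intro h
      apply hb0
      linear_combination -h)
    have e1 : v + a • (w - f) = v + b • (w - f) + (-1 - b) • (w - f) := by
      have : a = -1 := by linear_combination ha1
      subst this
      module
    rwa [e1]
  · exact Good.add_aux hF hH he hf' hv hw ha ha1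

/-- Isotropic vectors not orthogonal to `e`. -/
theorem tin_of_ne (hF : Frm σ ε J) (hH : H ≤ FormGroup σ J) {e : n → k}
    (he : Tin σ ε J H e) (hall : ∀ v, hf σ J e v = 1 → Good σ ε J H e v) {x : n → k}
    (hx : hf σ J x x = 0) (hex : hf σ J e x ≠ 0) : Tin σ ε J H x := by
  set a : k := σ (hf σ J e x)⁻¹ with ha
  have ha0 : a ≠ 0 := by
    rw [ha, Ne, map_eq_zero]
    exact inv_ne_zero hex
  have h1 : hf σ J e (a • x) = 1 := by
    rw [hf_smul_right, ha, hF.inv, inv_mul_cancel₀ hex]
  have h2 := (hall _ h1).tin hF hH he (iso_smul hx a)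
  have h3 := h2.smul hF a⁻¹
  rwa [smul_smul, inv_mul_cancel₀ ha0, one_smul] at h3

/-- All isotropic vectors. -/
theorem tin_all (hF : Frm σ ε J) (hH : H ≤ FormGroup σ J) {e : n → k} (he0 : e ≠ 0)
    (he : Tin σ ε J H e) (hall : ∀ v, hf σ J e v = 1 → Good σ ε J H e v) {x : n → k}
    (hx : hf σ J x x = 0) : Tin σ ε J H x := by
  by_cases hx0 : x = 0
  · subst hx0
    refine ⟨hx, fun c hc => ?_⟩
    have : tv σ J (0 : n → k) c = 1 := by
      refine ext_vecMul fun y => ?_
      rw [vecMul_tv hx, smul_zero, add_zero]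
      exact (vecMul_one' y).symm
    rw [this]
    exact H.one_mem
  by_cases hex : hf σ J e x = 0
  · obtain ⟨z, hz, h1, h2⟩ := hF.exists_conn he0 he.1 hx0 hx
    have hzt := tin_of_ne hF hH he hall hz h1
    obtain ⟨s, hs0, hs⟩ := hF.cc
    set p : k := hf σ J z x with hp
    have hp0 : σ p ≠ 0 := by rwa [Ne, map_eq_zero]
    have hxz : hf σ J x z = ε * σ p := by rw [hF.herm z x]
    have hε0 := hF.eps_ne
    set c : k := s / p with hc
    have hc0 : c ≠ 0 := div_ne_zero hs0 h2
    have hcp : c * p = s := div_mul_cancel₀ s h2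
    have hz' : hf σ J (x + c • z) (x + c • z) = 0 := by
      rw [hf_add_left, hf_add_right, hf_add_right, hf_smul_left, hf_smul_left, hf_smul_right,
        hf_smul_right, hx, hz, hxz, ← hp]
      have h3 : σ c * σ p = σ s := by rw [← map_mul, hcp]
      linear_combination hcp + ε * h3 + hs
    have hez' : hf σ J e (x + c • z) ≠ 0 := by
      rw [hf_add_right, hf_smul_right, hex, zero_add]
      exact mul_ne_zero (by rwa [Ne, map_eq_zero]) h1
    have hz't := tin_of_ne hF hH he hall hz' hez'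
    -- the coefficient
    set N : k := p * σ p with hN
    have hN0 : N ≠ 0 := mul_ne_zero h2 hp0
    have hNs : σ N = N := by rw [hN, map_mul, hF.inv, mul_comm]
    have hγ : -N⁻¹ * (ε * s) + ε * σ (-N⁻¹ * (ε * s)) = 0 := by
      refine cc_fix (by rw [map_neg, map_inv₀, hNs]) ?_
      rw [map_mul, hF.seps]
      linear_combination ε * hs
    have h5 := hz't.map hH (hzt.2 _ hγ)
    rw [vecMul_tv hz, hf_add_left, hf_smul_left, hz, hxz, mul_zero, add_zero] at h5
    have e1 : -N⁻¹ * (ε * s) * (ε * σ p) = -c := by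
      have h6 : N⁻¹ * N = 1 := inv_mul_cancel₀ hN0
      have h7 : N⁻¹ * σ p * p = 1 := by
        rw [hN] at h6 ⊢
        linear_combination h6
      have : -N⁻¹ * (ε * s) * (ε * σ p) = -(ε * ε) * (s * (N⁻¹ * σ p)) := by ring
      rw [this, hF.eps, ← hcp]
      linear_combination -c * h7
    rw [e1] at h5
    have e2 : x + c • z + -c • z = x := by module
    rwa [e2] at h5
  · exact tin_of_ne hF hH he hall hx hex

end

/-- The field is at most quadratic over the fixed field. -/
theorem exists_theta (hinv : ∀ x : k, σ (σ x) = x) :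
    ∃ θ : k, ∀ x, ∃ a b, σ a = a ∧ σ b = b ∧ x = a + b * θ := by
  by_cases h : ∀ x, σ x = x
  · exact ⟨0, fun x => ⟨x, 0, h x, map_zero σ, by ring⟩⟩
  · push Not at h
    obtain ⟨θ, hθ⟩ := h
    have hd : θ - σ θ ≠ 0 := sub_ne_zero.2 (Ne.symm hθ)
    refine ⟨θ, fun x => ?_⟩
    set b : k := (x - σ x) / (θ - σ θ) with hb
    have hbs : σ b = b := by
      rw [hb, map_div₀, map_sub, map_sub, hinv, hinv]
      rw [← neg_sub x (σ x), ← neg_sub θ (σ θ), neg_div_neg_eq]
    have hbd : b * (θ - σ θ) = x - σ x := div_mul_cancel₀ _ hd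
    refine ⟨x - b * θ, b, ?_, hbs, by ring⟩
    rw [map_sub, map_mul, hbs]
    linear_combination hbd

/-- **The group generated by the transvections is generated by finitely many root groups.** -/
theorem exists_fin (hF : Frm σ ε J) {b : k} (hb : σ b = b) (hb0 : b ≠ 0) (hb1 : 1 + b ≠ 0) :
    ∃ F : Set (n → k), F.Finite ∧ (∀ u ∈ F, hf σ J u u = 0) ∧
      ∀ H : Subgroup (SpecialLinearGroup n k), H ≤ FormGroup σ J →
        (∀ u ∈ F, ∀ c, c + ε * σ c = 0 → tv σ J u c ∈ H) → GT σ ε J ≤ H := by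
  obtain ⟨e, he0, he⟩ := hF.iso
  obtain ⟨f, hff, hef⟩ := hF.exists_hyp he0 he
  obtain ⟨θ, hθ⟩ := exists_theta hF.inv
  let pr : (n → k) → (n → k) := fun x => x - σ (hf σ J e x) • f
  have hpr : ∀ x, hf σ J e (pr x) = 0 := fun x => by
    change hf σ J e (x - σ (hf σ J e x) • f) = 0
    rw [sub_eq_add_neg, ← neg_one_smul k (σ (hf σ J e x) • f), hf_add_right, hf_smul_right,
      hf_smul_right, hef, hF.inv, map_neg, map_one]
    ring
  let w : n × Bool → (n → k) := fun i => (if i.2 then θ else 1) • pr (Pi.single i.1 1)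
  have hw : ∀ i, hf σ J e (w i) = 0 := fun i => by
    change hf σ J e (_ • _) = 0
    rw [hf_smul_right, hpr, mul_zero]
  have hex : ∀ i, ∃ γ : k, hf σ J (f + w i + γ • e) (f + w i + γ • e) = 0 := fun i => by
    refine hF.exists_corr he ?_
    rw [hf_add_right, hw, hef, add_zero]
    exact one_ne_zero
  choose γ hγ using hex
  refine ⟨{e, f} ∪ Set.range fun i => f + w i + γ i • e,
    (Set.toFinite _).union (Set.finite_range _), ?_, ?_⟩
  · rintro u ((rfl | rfl) | ⟨i, rfl⟩)
    · exact he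
    · exact hff
    · exact hγ i
  intro H hH hFH
  have heT : Tin σ ε J H e := ⟨he, hFH e (Or.inl (Or.inl rfl))⟩
  have hfT : Tin σ ε J H f := ⟨hff, hFH f (Or.inl (Or.inr rfl))⟩
  have hfG : Good σ ε J H e f := ⟨hef, 0, by rwa [zero_smul, add_zero]⟩
  have hwG : ∀ i, Good σ ε J H e (f + w i) := fun i =>
    ⟨by rw [hf_add_right, hw, hef, add_zero], γ i, hγ i, hFH _ (Or.inr ⟨i, rfl⟩)⟩
  have key : ∀ (a : n × Bool → k) (_ : ∀ i, σ (a i) = a i) (S : Finset (n × Bool)),
      Good σ ε J H e (f + ∑ i ∈ S, a i • w i) := by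
    intro a ha S
    classical
    induction S using Finset.induction_on with
    | empty => rwa [Finset.sum_empty, add_zero]
    | insert i S hi ih =>
      have h1 := Good.add hF hH hb hb0 hb1 heT hfG ih (hwG i) (ha i)
      have e1 : f + ∑ j ∈ insert i S, a j • w j =
          f + ∑ j ∈ S, a j • w j + a i • (f + w i - f) := by
        rw [Finset.sum_insert hi, add_sub_cancel_left]
        abel
      rwa [e1]
  have hall : ∀ v, hf σ J e v = 1 → Good σ ε J H e v := by
    intro v hv
    choose a a' ha ha' haa using fun i => hθ ((v - f) i)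
    have hs : ∀ i : n × Bool, σ (if i.2 then a' i.1 else a i.1) = if i.2 then a' i.1 else a i.1 := by
      intro i
      split_ifs
      · exact ha' _
      · exact ha _
    have h1 := key _ hs Finset.univ
    have e1 : v = f + ∑ i : n × Bool, (if i.2 then a' i.1 else a i.1) • w i := by
      have hlin : ∑ i, (v - f) i • pr (Pi.single i 1) = pr (v - f) := by
        have hp : ∀ (c : n → k) (S : Finset n), pr (∑ i ∈ S, c i • Pi.single i 1) =
            ∑ i ∈ S, c i • pr (Pi.single i 1) := by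
          intro c S
          induction S using Finset.induction_on with
          | empty =>
            change (0 : n → k) - σ (hf σ J e 0) • f = 0
            rw [hf_zero_right, map_zero, zero_smul, sub_zero]
          | insert i S hi ih =>
            rw [Finset.sum_insert hi, Finset.sum_insert hi, ← ih]
            change _ - σ (hf σ J e _) • f = c i • (_ - σ (hf σ J e _) • f) +
              (_ - σ (hf σ J e _) • f)
            rw [hf_add_right, hf_smul_right, map_add, map_mul, hF.inv]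
            module
        have := hp (v - f) Finset.univ
        rw [← this]
        congr 1
        funext j
        simp [Finset.sum_apply, Pi.single_apply]
      have hprv : pr (v - f) = v - f := by
        change (v - f) - σ (hf σ J e (v - f)) • f = v - f
        have : hf σ J e (v - f) = 0 := by
          rw [sub_eq_add_neg, ← neg_one_smul k f, hf_add_right, hf_smul_right, hv, hef, map_neg,
            map_one]
          ring
        rw [this, map_zero, zero_smul, sub_zero]
      have hsum : ∑ i : n × Bool, (if i.2 then a' i.1 else a i.1) • w i =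
          ∑ i, (v - f) i • pr (Pi.single i 1) := by
        rw [Fintype.sum_prod_type]
        refine Finset.sum_congr rfl fun i _ => ?_
        rw [Fintype.sum_bool]
        change (if true = true then a' i else a i) • ((if true = true then θ else 1) • _) +
          (if false = true then a' i else a i) • ((if false = true then θ else 1) • _) = _
        simp only [if_true, Bool.false_eq_true, if_false]
        rw [haa i]
        module
      rw [hsum, hlin, hprv]
      abel
    rw [e1]
    exact h1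
  rw [GT, Subgroup.closure_le]
  rintro _ ⟨u, c, hu, hc, rfl⟩
  exact (tin_all hF hH he0 heT hall hu).2 c hc

end Vale.Agent.P092.H678.Gen
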