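import Vale.Agent.P092.H183.Cl2
import Vale.Agent.P092.H678.BComm
import Vale.Agent.P092.H678.Gen

/-!
P092 (helper678), block B-CLASS: in the closed groups generated by transvections the commutator
subgroups of the open subgroups are open.
-/

set_option autoImplicit false
set_option linter.all false

namespace Vale.Agent.P092.H678.ClC

open Matrix Topology Filter
open scoped commutatorElement
open Vale.Agent.P092.H303 (FormGroup)
open Vale.Agent.P092.H714.Cl
open Vale.Agent.P092.H183.Cl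

variable {k : Type} [NontriviallyNormedField k] {n : Type} [Fintype n] [DecidableEq n]
variable {σ : k →+* k} {ε : k} {J : Matrix n n k} {G : Subgroup (SpecialLinearGroup n k)}

/-- Elements of the fixed field close to `1`. -/
theorem exists_r (hF : Frm σ ε J) (hσ : ∀ x, ‖σ x‖ = ‖x‖) :
    ∃ r : ℕ → k, (∀ j, σ (r j) = r j) ∧ Tendsto r atTop (𝓝 1) ∧
      (∀ᶠ j in atTop, r j ≠ 0) ∧ (∀ᶠ j in atTop, (r j)⁻¹ * (r j)⁻¹ ≠ 1) := by
  obtain ⟨x, hx, hx1⟩ := exists_fix hF hσ
  have hx0 : x ≠ 0 := by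
    rintro rfl
    rw [norm_zero] at hx1
    linarith
  have ht : Tendsto (fun j : ℕ => (x⁻¹) ^ j) atTop (𝓝 0) := by
    refine tendsto_pow_atTop_nhds_zero_of_norm_lt_one ?_
    rw [norm_inv]
    exact inv_lt_one_of_one_lt₀ hx1
  have ht1 : Tendsto (fun j : ℕ => 1 + (x⁻¹) ^ j) atTop (𝓝 1) := by
    simpa using ht.const_add 1
  refine ⟨fun j => 1 + (x⁻¹) ^ j, fun j => ?_, ht1, ?_, ?_⟩
  · rw [map_add, map_one, map_pow, map_inv₀, hx]
  · exact ht1.eventually_ne one_ne_zero
  · have h0 : ∀ᶠ j in atTop, 1 + (x⁻¹) ^ j ≠ 0 := ht1.eventually_ne one_ne_zero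
    have h2 : ∀ᶠ j : ℕ in atTop, (x⁻¹) ^ j ≠ -2 := by
      by_cases h : (2 : k) = 0
      · refine Eventually.of_forall fun j hj => ?_
        rw [h, neg_zero] at hj
        exact pow_ne_zero j (inv_ne_zero hx0) hj
      · exact ht.eventually_ne (by simpa using (neg_ne_zero.2 h).symm)
    filter_upwards [h0, h2] with j hj0 hj2 hj
    have h3 : (1 + (x⁻¹) ^ j) * (1 + (x⁻¹) ^ j) = 1 := by
      field_simp at hj
      have : (1 : k) = (1 + x⁻¹ ^ j) ^ 2 := by
        have h4 : (1 + x⁻¹ ^ j)⁻¹ * (1 + x⁻¹ ^ j)⁻¹ = 1 := by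
          field_simp
          exact hj
        have h5 : ((1 + x⁻¹ ^ j)⁻¹ * (1 + x⁻¹ ^ j)⁻¹) * ((1 + x⁻¹ ^ j) * (1 + x⁻¹ ^ j)) = 1 := by
          rw [mul_mul_mul_comm, inv_mul_cancel₀ hj0, one_mul]
        rw [h4, one_mul] at h5
        rw [pow_two, h5]
      rw [pow_two] at this
      exact this.symm
    have h6 : (x⁻¹) ^ j * ((x⁻¹) ^ j + 2) = 0 := by linear_combination h3
    rcases mul_eq_zero.1 h6 with h7 | h7
    · exact pow_ne_zero j (inv_ne_zero hx0) h7
    · exact hj2 (by linear_combination h7)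

theorem continuous_tv (hσc : Continuous σ) {u : n → k} (hu : hf σ J u u = 0) :
    Continuous fun c : k => tv σ J u c := by
  have h1 : Continuous fun c : k => tvm σ J u c :=
    (continuous_tvm (J := J) hσc).comp (Continuous.prodMk continuous_const continuous_id)
  refine continuous_induced_rng.2 (h1.congr fun c => ?_)
  exact (tv_val hu c).symm

theorem tendsto_dv (hσc : Continuous σ) {u w : n → k} (hu : hf σ J u u = 0)
    (hw : hf σ J w w = 0) (s : k) :
    Tendsto (fun r : k => dv σ ε J u w s r) (𝓝 1) (𝓝 1) := by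
  have h1 : Tendsto (fun r : k => ε * ((r - 1) / s)) (𝓝 1) (𝓝 0) := by
    have : Continuous fun r : k => ε * ((r - 1) / s) := by fun_prop
    have h := this.tendsto 1
    simpa using h
  have h2 : Tendsto (fun r : k => ε * (-((r - 1) / s) / r)) (𝓝 1) (𝓝 0) := by
    have : ContinuousAt (fun r : k => ε * (-((r - 1) / s) / r)) 1 := by
      refine continuousAt_const.mul (ContinuousAt.div ?_ continuousAt_id one_ne_zero)
      exact (((continuous_id.sub continuous_const).div_const s).neg).continuousAt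
    have h := this.tendsto
    simpa using h
  have h3 : Tendsto (fun r : k => -(r * s)) (𝓝 1) (𝓝 (-s)) := by
    have : Continuous fun r : k => -(r * s) := by fun_prop
    have h := this.tendsto 1
    simpa using h
  have hcu := continuous_tv (J := J) hσc hu
  have hcw := continuous_tv (J := J) hσc hw
  have a1 := (hcu.tendsto 0).comp h1
  have a2 := (hcu.tendsto 0).comp h2
  have a3 := (hcw.tendsto (-s)).comp h3
  have h4 := ((a1.mul (tendsto_const_nhds (x := tv σ J w s))).mul a2).mul a3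
  rw [tv_zero, one_mul, mul_one, tv_neg hw, mul_inv_cancel] at h4
  exact h4

/-- Small transvections. -/
theorem small_tg (hσc : Continuous σ) (hG : GT σ ε J ≤ G) {u : n → k} (hu : hf σ J u u = 0)
    {W : Set G} (hW : W ∈ 𝓝 (1 : G)) :
    ∃ δ : ℝ, 0 < δ ∧ ∀ c (hc : c + ε * σ c = 0), ‖c‖ ≤ δ → tg hG hu hc ∈ W := by
  rw [nhds_subtype_eq_comap] at hW
  obtain ⟨V, hV, hVW⟩ := hW
  have h1 : (fun c : k => tv σ J u c) ⁻¹' V ∈ 𝓝 (0 : k) := by
    refine (continuous_tv hσc hu).continuousAt ?_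
    rw [tv_zero]
    exact hV
  obtain ⟨δ, hδ, h2⟩ := Metric.mem_nhds_iff.1 h1
  refine ⟨δ / 2, by positivity, fun c hc hcδ => hVW ?_⟩
  have : c ∈ Metric.ball (0 : k) δ := by
    rw [mem_ball_zero_iff]
    linarith
  exact h2 this

variable (C : ClG σ ε J G)

include C in
/-- The small elements of a root group are in the commutator subgroup of an open subgroup. -/
theorem small_comm {u : n → k} (hu : hf σ J u u = 0) (V : Subgroup G)
    (hV : IsOpen (V : Set G)) :
    ∃ δ : ℝ, 0 < δ ∧ ∀ c (hc : c + ε * σ c = 0), ‖c‖ ≤ δ → tg C.hG hu hc ∈ (⁅V, V⁆ : Subgroup G) := by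
  have hσc := continuous_of_norm C.hσ
  by_cases hu0 : u = 0
  · subst hu0
    refine ⟨1, one_pos, fun c hc _ => ?_⟩
    have e : tg C.hG hu hc = 1 := by
      refine Subtype.ext ?_
      rw [tg_val]
      refine ext_vecMul fun x => ?_
      rw [vecMul_tv hu, smul_zero, add_zero]
      exact (vecMul_one' x).symm
    rw [e]
    exact one_mem _
  obtain ⟨w, hw, huw⟩ := C.hF.exists_hyp hu0 hu
  obtain ⟨s, hs0, hs⟩ := C.hF.cc
  obtain ⟨r, hr, hr1, hr0, hr2⟩ := exists_r C.hF C.hσ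
  have hVn : (V : Set G) ∈ 𝓝 (1 : G) := hV.mem_nhds V.one_mem
  have hVn' := hVn
  rw [nhds_subtype_eq_comap] at hVn'
  obtain ⟨V', hV', hVV⟩ := hVn'
  have h1 : ∀ᶠ j in atTop, dv σ ε J u w s (r j) ∈ V' :=
    ((tendsto_dv hσc hu hw s).comp hr1).eventually hV'
  obtain ⟨j, hj1, hj0, hj2⟩ := (h1.and (hr0.and hr2)).exists
  set D : G := dg C.hG C.hF hu hw hs0 hs hj0 (hr j) with hD
  have hDV : D ∈ V := hVV hj1
  have hDu : u ᵥ* D.1.1 = (r j)⁻¹ • u := u_dv C.hF hu hw huw hs0 hj0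
  have hri : σ (r j)⁻¹ = (r j)⁻¹ := by rw [map_inv₀, hr j]
  have hq0 : (r j)⁻¹ * (r j)⁻¹ - 1 ≠ 0 := sub_ne_zero.mpr hj2
  set q : k := ((r j)⁻¹ * (r j)⁻¹ - 1)⁻¹ with hq
  have hqne : q ≠ 0 := inv_ne_zero hq0
  have hqs : σ q = q := by rw [hq, map_inv₀, map_sub, map_mul, hri, map_one]
  obtain ⟨δ, hδ, hsm⟩ := small_tg hσc C.hG hu hVn
  have hqn : 0 < ‖q‖ := norm_pos_iff.2 hqne
  refine ⟨δ / ‖q‖, by positivity, fun d hd hdδ => ?_⟩
  have hc : q * d + ε * σ (q * d) = 0 := cc_fix hqs hd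
  have hcV : tg C.hG hu hc ∈ V := by
    refine hsm _ hc ?_
    rw [norm_mul]
    rw [le_div_iff₀ hqn] at hdδ
    linarith
  have e : tg C.hG hu hd = ⁅D⁻¹, tg C.hG hu hc⁆ := by
    rw [commutatorElement_def, inv_inv, conj_tg C.hG C.hGF hu hc D]
    refine Subtype.ext ?_
    change tv σ J u d = tv σ J (u ᵥ* D.1.1) (q * d) * (tv σ J u (q * d))⁻¹
    rw [hDu, tv_smul hu, hri, ← tv_neg hu, ← tv_add hu]
    congr 1
    have h5 : ((r j)⁻¹ * (r j)⁻¹ - 1) * q = 1 := by rw [hq, mul_inv_cancel₀ hq0]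
    linear_combination -d * h5
  rw [e]
  exact Subgroup.commutator_mem_commutator (V.inv_mem hDV) hcV

include C in
/-- Compact pieces of root groups. -/
theorem isCompact_piece {u : n → k} (hu : hf σ J u u = 0) {K : Set k} (hK : IsCompact K) :
    IsCompact {g : G | ∃ c ∈ K, c + ε * σ c = 0 ∧ g.1 = tv σ J u c} := by
  have hσc := continuous_of_norm C.hσ
  have h1 : IsCompact (K ∩ {c : k | c + ε * σ c = 0}) := by
    refine hK.inter_right ?_
    have : Continuous fun c : k => c + ε * σ c := continuous_id.add (continuous_const.mul hσc)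
    exact isClosed_eq this continuous_const
  have h2 := h1.image (continuous_tv (J := J) hσc hu)
  have he : IsClosedEmbedding (Subtype.val : G → SpecialLinearGroup n k) :=
    C.hGc.isClosedEmbedding_subtypeVal
  have h3 := he.isCompact_preimage h2
  convert h3 using 1
  ext g
  constructor
  · rintro ⟨c, hc, hc', hg⟩
    exact ⟨c, ⟨hc, hc'⟩, hg.symm⟩
  · rintro ⟨c, ⟨hc, hc'⟩, hg⟩
    exact ⟨c, hc, hc', hg.symm⟩

include C in
theorem sm_piece [ProperSpace k] {u : n → k} (hu : hf σ J u u = 0) (m : ℕ) (V : Subgroup G)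
    (hV : IsOpen (V : Set G)) :
    BC.Sm (⁅V, V⁆ : Subgroup G)
      {g : G | ∃ c ∈ Metric.closedBall (0 : k) m, c + ε * σ c = 0 ∧ g.1 = tv σ J u c} := by
  obtain ⟨δ, hδ, hsm⟩ := small_comm C hu V hV
  have hK : IsCompact (Metric.closedBall (0 : k) m) := isCompact_closedBall _ _
  obtain ⟨t, -, htf, ht⟩ := hK.finite_cover_balls (half_pos hδ)
  refine ⟨(fun x : k => {g : G | ∃ c ∈ Metric.closedBall (0 : k) m ∩ Metric.closedBall x (δ / 2),
    c + ε * σ c = 0 ∧ g.1 = tv σ J u c}) '' t, htf.image _, ?_, ?_⟩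
  · rintro _ ⟨x, hx, rfl⟩
    refine ⟨isCompact_piece C hu (hK.inter_right Metric.isClosed_closedBall), ?_, ?_⟩
    · rintro g ⟨c, hc, h1, h2⟩
      exact ⟨c, hc.1, h1, h2⟩
    · rintro g ⟨c, hc, h1, h2⟩ g' ⟨c', hc', h1', h2'⟩
      have hcc : (-c + c') + ε * σ (-c + c') = 0 := by
        rw [map_add, map_neg]
        linear_combination h1' - h1
      have e : g⁻¹ * g' = tg C.hG hu hcc := by
        refine Subtype.ext ?_
        change (g.1)⁻¹ * g'.1 = tv σ J u (-c + c')
        rw [h2, h2', ← tv_neg hu, ← tv_add hu]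
      rw [e]
      refine hsm _ hcc ?_
      have a1 : dist c x ≤ δ / 2 := hc.2
      have a2 : dist c' x ≤ δ / 2 := hc'.2
      have a3 : ‖-c + c'‖ = dist c' c := by rw [dist_eq_norm]; congr 1; ring
      rw [a3]
      calc dist c' c ≤ dist c' x + dist x c := dist_triangle _ _ _
        _ ≤ δ / 2 + δ / 2 := by rw [dist_comm x c]; exact add_le_add a2 a1
        _ = δ := by ring
  · rintro g ⟨c, hc, h1, h2⟩
    obtain ⟨x, hx, hcx⟩ := Set.mem_iUnion₂.1 (ht hc)
    exact ⟨_, ⟨x, hx, rfl⟩, c, ⟨hc, Metric.ball_subset_closedBall hcx⟩, h1, h2⟩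

include C in
/-- **The commutator subgroup of an open subgroup is open.** -/
theorem comm_openG [ProperSpace k] (hE : G ≤ GT σ ε J) (V : Subgroup G)
    (hV : IsOpen (V : Set G)) : IsOpen ((⁅V, V⁆ : Subgroup G) : Set G) := by
  haveI := C.t2G
  haveI := C.lcG
  obtain ⟨x, hx, hx1⟩ := exists_fix C.hF C.hσ
  have hx0 : x ≠ 0 := by
    rintro rfl
    rw [norm_zero] at hx1
    linarith
  have hxn : 1 + x ≠ 0 := by
    intro h
    have : x = -1 := by linear_combination h
    rw [this, norm_neg, norm_one] at hx1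
    exact lt_irrefl _ hx1
  obtain ⟨F, hFf, hFi, hFg⟩ := Gen.exists_fin C.hF hx hx0 hxn
  haveI : Countable F := hFf.countable.to_subtype
  refine BC.isOpen_commutator (ι := F × ℕ)
    (T := fun i => {g : G | ∃ c ∈ Metric.closedBall (0 : k) i.2, c + ε * σ c = 0 ∧
      g.1 = tv σ J i.1.1 c})
    (fun i => isCompact_piece C (hFi _ i.1.2) (isCompact_closedBall _ _)) ?_ ?_
    (fun i V hV => sm_piece C (hFi _ i.1.2) i.2 V hV) V hV
  · rintro i g ⟨c, hc, h1, h2⟩
    refine ⟨-c, ?_, ?_, ?_⟩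
    · rw [mem_closedBall_zero_iff] at hc ⊢
      rwa [norm_neg]
    · rw [map_neg]
      linear_combination -h1
    · change (g.1)⁻¹ = _
      rw [h2, tv_neg (hFi _ i.1.2)]
  · set T : F × ℕ → Set G := fun i => {g : G | ∃ c ∈ Metric.closedBall (0 : k) i.2,
      c + ε * σ c = 0 ∧ g.1 = tv σ J i.1.1 c} with hT
    have h1 : GT σ ε J ≤ (Subgroup.closure (⋃ i, T i)).map G.subtype := by
      refine hFg _ ?_ ?_
      · rintro _ ⟨g, -, rfl⟩
        exact C.hGF g.2
      · intro u hu c hc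
        obtain ⟨m, hm⟩ := exists_nat_ge ‖c‖
        refine ⟨tg C.hG (hFi u hu) hc, Subgroup.subset_closure
          (Set.mem_iUnion.2 ⟨(⟨u, hu⟩, m), c, ?_, hc, rfl⟩), rfl⟩
        rw [mem_closedBall_zero_iff]
        exact hm
    rw [eq_top_iff]
    intro g _
    obtain ⟨g', hg', e⟩ := h1 (hE g.2)
    have : g' = g := Subtype.ext e
    rwa [← this]

end Vale.Agent.P092.H678.ClC
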