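import Vale.Agent.P092.H15.ClHM
import Vale.Agent.P092.H678.ClComm

/-!
P092 (helper678), block B-CLASS: the groups `G / Z(G)`, `G` closed and generated by the transvections
of a hermitian form over a non-archimedean local field, are good groups.
-/

set_option autoImplicit false
set_option linter.all false

namespace Vale.Agent.P092.H678.ClC

open Matrix Topology Filter
open scoped commutatorElement
open Vale.Agent.P092.H303 (FormGroup)
open Vale.Agent.P092.H714.Cl
open Vale.Agent.P092.H183.Cl
open Vale.Agent.P092.H15 (HMG Ctr)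
open Vale.Agent.P092.H933 (Len)

/-- **Proper open subgroups are compact.** -/
theorem isCompact_of_hmg {H : Type*} [Group H] [TopologicalSpace H] [IsTopologicalGroup H]
    (h : HMG H) (V : Subgroup H) (hV : IsOpen (V : Set H)) (hne : V ≠ ⊤) :
    IsCompact (V : Set H) := by
  classical
  by_contra hc
  have hcl : IsClosed (V : Set H) := Subgroup.isClosed_of_isOpen V hV
  haveI hnb : NeBot (𝓟 (V : Set H) ⊓ cocompact H) := by
    rw [neBot_iff]
    intro h0
    have h1 : Disjoint (𝓟 (V : Set H)) (cocompact H) := disjoint_iff.2 h0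
    rw [disjoint_principal_left] at h1
    obtain ⟨K, hK, hKV⟩ := mem_cocompact.1 h1
    exact hc (hK.of_isClosed_subset hcl (Set.compl_subset_compl.1 hKV))
  set U : Ultrafilter H := Ultrafilter.of (𝓟 (V : Set H) ⊓ cocompact H) with hU
  have hU1 : (U : Filter H) ≤ 𝓟 (V : Set H) ⊓ cocompact H := Ultrafilter.of_le _
  have hUc : (U : Filter H) ≤ cocompact H := hU1.trans inf_le_right
  have hUV : ∀ᶠ b in (U : Filter H), b ∈ V := le_principal_iff.1 (hU1.trans inf_le_left)
  have hf : Len (fun g : H => if g ∈ V then (0 : ℝ) else 1) := by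
    refine ⟨?_, fun g => ?_, fun g g' => ?_, ?_⟩
    · rw [if_pos V.one_mem]
    · simp only [inv_mem_iff]
    · by_cases h1 : g ∈ V
      · by_cases h2 : g' ∈ V
        · rw [if_pos h1, if_pos h2, if_pos (V.mul_mem h1 h2)]; norm_num
        · rw [if_pos h1, if_neg h2]
          split_ifs <;> norm_num
      · rw [if_neg h1]
        split_ifs <;> norm_num
    · refine tendsto_const_nhds.congr' ?_
      filter_upwards [hV.mem_nhds V.one_mem] with g hg
      rw [if_pos (show g ∈ V from hg)]
  have key := h U hUc _ hf (fun g hg => by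
    obtain ⟨γ, hγ, hγ1⟩ := hg
    have h1 : ∀ᶠ b in (U : Filter H), b⁻¹ * γ b * b ∈ V := hγ1.eventually (hV.mem_nhds V.one_mem)
    have h2 : ∀ᶠ b in (U : Filter H), γ b ∈ (V : Set H) := by
      filter_upwards [h1, hUV] with b hb hbV
      have : γ b = b * (b⁻¹ * γ b * b) * b⁻¹ := by group
      change γ b ∈ V
      rw [this]
      exact V.mul_mem (V.mul_mem hbV hb) (V.inv_mem hbV)
    have h3 : g ∈ (V : Set H) := hcl.mem_of_tendsto hγ h2
    exact if_pos h3)
  refine hne (eq_top_iff.2 fun g _ => ?_)
  by_contra hg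
  have h1 := key g
  rw [if_neg hg] at h1
  exact one_ne_zero h1

variable {k : Type} [NontriviallyNormedField k] {n : Type} [Fintype n] [DecidableEq n]
variable {σ : k →+* k} {ε : k} {J : Matrix n n k} {G : Subgroup (SpecialLinearGroup n k)}

theorem exists_rr (hF : Frm σ ε J) (hσ : ∀ x, ‖σ x‖ = ‖x‖) :
    ∃ r : k, σ r = r ∧ r ≠ 0 ∧ r * r ≠ r⁻¹ * r⁻¹ ∧ r⁻¹ * r⁻¹ ≠ 1 := by
  obtain ⟨r, hr, hr1⟩ := exists_fix hF hσ
  have hr0 : r ≠ 0 := by
    rintro rfl
    rw [norm_zero] at hr1
    linarith
  have hri : ‖r⁻¹ * r⁻¹‖ < 1 := by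
    rw [norm_mul, norm_inv]
    have := inv_lt_one_of_one_lt₀ hr1
    have h0 : 0 < ‖r‖⁻¹ := by positivity
    nlinarith
  refine ⟨r, hr, hr0, fun h => ?_, fun h => ?_⟩
  · have h1 : ‖r * r‖ < 1 := by rw [h]; exact hri
    rw [norm_mul] at h1
    nlinarith
  · rw [h, norm_one] at hri
    exact lt_irrefl _ hri

variable (C : ClG σ ε J G) (hE : G ≤ GT σ ε J)

include C hE in
theorem normal_dich (N : Subgroup G) (hN : N.Normal) : N ≤ Subgroup.center G ∨ N = ⊤ := by
  obtain ⟨r, hr, hr0, hr4, -⟩ := exists_rr C.hF C.hσ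
  by_cases h : N ≤ Subgroup.center G
  · exact Or.inl h
  · obtain ⟨z, hz, hzc⟩ := SetLike.not_le_iff_exists.1 h
    refine Or.inr (eq_top_iff.2 fun x _ => ?_)
    exact normal_main C.hF C.hG C.hGF hr hr0 hr4 N hN hz hzc x.1 (hE x.2)

include C hE in
/-- The quotient by the centre is simple. -/
theorem normal_quot (N : Subgroup (G ⧸ Subgroup.center G)) (hN : N.Normal) : N = ⊥ ∨ N = ⊤ := by
  have hs : Function.Surjective (QuotientGroup.mk' (Subgroup.center G)) :=
    QuotientGroup.mk'_surjective _
  rcases normal_dich C hE _ (hN.comap (QuotientGroup.mk' (Subgroup.center G))) with h | h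
  · left
    refine (Subgroup.eq_bot_iff_forall _).2 fun x hx => ?_
    obtain ⟨g, rfl⟩ := hs x
    exact (QuotientGroup.eq_one_iff g).2 (h hx)
  · right
    rw [eq_top_iff]
    intro x _
    obtain ⟨g, rfl⟩ := hs x
    have : g ∈ (⊤ : Subgroup G) := trivial
    rw [← h] at this
    exact this

include C hE in
theorem perfectG : commutator G = ⊤ := by
  obtain ⟨r, hr, hr0, -, hr2⟩ := exists_rr C.hF C.hσ
  rw [eq_top_iff]
  intro x _
  have h := hom_GT C.hF C.hG C.hGF (Abelianization.of (G := G)) hr hr0 hr2 x.1 (hE x.2)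
  exact (QuotientGroup.eq_one_iff x).1 h

include C hE in
theorem perfect : commutator (G ⧸ Subgroup.center G) = ⊤ := by
  have hs : Function.Surjective (QuotientGroup.mk' (Subgroup.center G)) :=
    QuotientGroup.mk'_surjective _
  have h := perfectG C hE
  have h2 : (commutator G).map (QuotientGroup.mk' (Subgroup.center G)) =
      commutator (G ⧸ Subgroup.center G) := by
    rw [commutator_def, commutator_def, Subgroup.map_commutator,
      Subgroup.map_top_of_surjective _ hs]
  rw [← h2, h, Subgroup.map_top_of_surjective _ hs]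

include C hE in
theorem comm_open [ProperSpace k] (V : Subgroup (G ⧸ Subgroup.center G))
    (hV : IsOpen (V : Set (G ⧸ Subgroup.center G))) :
    IsOpen ((⁅V, V⁆ : Subgroup (G ⧸ Subgroup.center G)) : Set (G ⧸ Subgroup.center G)) := by
  have hs : Function.Surjective (QuotientGroup.mk' (Subgroup.center G)) :=
    QuotientGroup.mk'_surjective _
  have hV' : IsOpen ((V.comap (QuotientGroup.mk' (Subgroup.center G)) : Subgroup G) : Set G) :=
    hV.preimage QuotientGroup.continuous_mk
  have h := comm_openG C hE _ hV'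
  have h2 : (⁅V.comap (QuotientGroup.mk' (Subgroup.center G)),
      V.comap (QuotientGroup.mk' (Subgroup.center G))⁆ : Subgroup G).map
        (QuotientGroup.mk' (Subgroup.center G)) = ⁅V, V⁆ := by
    rw [Subgroup.map_commutator, Subgroup.map_comap_eq_self_of_surjective hs]
  rw [← h2]
  exact QuotientGroup.isOpenMap_coe _ h

include C hE in
/-- **`G / Z(G)` is a good group.** -/
theorem good_cl [ProperSpace k] [IsUltrametricDist k] : SR.GoodGrp (G ⧸ Subgroup.center G) where
  top := C.top
  t2 := C.t2
  sc := C.sc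
  basis := C.basis
  nondisc := C.nondisc
  proper := fun V hV hne => by
    haveI := C.top
    have h : HMG G := H15.hmg_cl C.hσ C.hF C.hG C.hGF C.hGc
      (hE.trans (Subgroup.le_topologicalClosure _))
    exact isCompact_of_hmg (h.of_surj (QuotientGroup.mk' (Subgroup.center G))
      QuotientGroup.continuous_mk (QuotientGroup.mk'_surjective _)) V hV hne
  noncompact := C.noncompact
  perfect := perfect C hE
  comm_open := comm_open C hE
  open_normal := fun N hN hO => by
    rcases normal_quot C hE N hN with h | h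
    · exfalso
      rw [h] at hO
      exact C.nondisc (by simpa using hO)
    · exact h
  bdd_normal := fun N hN hb => by
    rcases normal_quot C hE N hN with h | h
    · exact h
    · exfalso
      obtain ⟨g, hg⟩ := C.hyp
      obtain ⟨D, hD, hm⟩ := hb g (by rw [h]; trivial)
      obtain ⟨m, hm'⟩ := hg D hD
      exact hm' (hm m)
  hyp := C.hyp
  cent := C.cent
  recur := C.recur

end Vale.Agent.P092.H678.ClC
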