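import Vale.Agent.P092.H678.Icc
import Vale.Agent.P092.H515.LatSl
import Vale.Agent.P092.H387.ExP1

/-!
P092 (helper678): `SL_N(F[x])`, `F` a finite field, is a lattice in `SL_N(F((1/x)))`; conjugacy
classes of `SL_N` of an infinite domain.
-/

set_option linter.all false

open Topology Filter Set

namespace Vale.Agent.P092.H678

open scoped LaurentPolynomial Polynomial
open Matrix

section poly

variable {N : ℕ} {F : Type} [Field F]

/-- `F[x] → F((X))`, `x ↦ 1/X` -/
noncomputable def psi : Polynomial F →+* LS F :=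
  (φ₂ : F[T;T⁻¹] →+* LS F).comp Polynomial.toLaurent

theorem psi_inj : Function.Injective (psi : Polynomial F →+* LS F) := by
  intro p q h
  exact Polynomial.toLaurent_injective (φ₂_inj h)

theorem coeff_toLaurent_nat (f : Polynomial F) (d : ℕ) :
    (Polynomial.toLaurent f).coeff (d : ℤ) = f.coeff d := by
  induction f using Polynomial.induction_on' with
  | add p q hp hq =>
    rw [map_add, Polynomial.coeff_add, ← hp, ← hq]
    rfl
  | monomial n a =>
    rw [← Polynomial.C_mul_X_pow_eq_monomial, Polynomial.toLaurent_C_mul_X_pow,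
      ← LaurentPolynomial.single_eq_C_mul_T, AddMonoidAlgebra.coeff_single,
      Polynomial.coeff_C_mul_X_pow]
    classical
    rw [Finsupp.single_apply]
    by_cases h : d = n
    · rw [if_pos h, if_pos (by rw [h])]
    · rw [if_neg h, if_neg (fun h' => h (by exact_mod_cast h'.symm))]

theorem coeff_toLaurent_neg (f : Polynomial F) {i : ℤ} (hi : i < 0) :
    (Polynomial.toLaurent f).coeff i = 0 := by
  induction f using Polynomial.induction_on' with
  | add p q hp hq =>
    rw [map_add]
    change (Polynomial.toLaurent p).coeff i + (Polynomial.toLaurent q).coeff i = 0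
    rw [hp, hq, add_zero]
  | monomial n a =>
    rw [← Polynomial.C_mul_X_pow_eq_monomial, Polynomial.toLaurent_C_mul_X_pow,
      ← LaurentPolynomial.single_eq_C_mul_T, AddMonoidAlgebra.coeff_single]
    classical
    rw [Finsupp.single_apply, if_neg (by omega)]

theorem exists_toLaurent {p : F[T;T⁻¹]} (hp : ∀ i < 0, p.coeff i = 0) :
    ∃ f : Polynomial F, Polynomial.toLaurent f = p := by
  obtain ⟨n, f', hf⟩ := LaurentPolynomial.exists_T_pow p
  have h1 : ∀ d < n, f'.coeff d = 0 := by
    intro d hd
    rw [← coeff_toLaurent_nat, hf]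
    have h2 : (p * LaurentPolynomial.T (n : ℤ)).coeff (d : ℤ) = p.coeff ((d : ℤ) - n) := by
      have e := cf_mul_X (φ₁ p) (n : ℤ) (d : ℤ)
      rw [← φ₁_T, ← map_mul, cf_φ₁, cf_φ₁] at e
      exact e
    rw [h2]
    exact hp _ (by omega)
  obtain ⟨g, rfl⟩ := Polynomial.X_pow_dvd_iff.2 h1
  refine ⟨g, ?_⟩
  rw [map_mul, Polynomial.toLaurent_X_pow, mul_comm] at hf
  exact (LaurentPolynomial.isUnit_T (n : ℤ)).mul_left_injective hf

/-- `SL_N(F[x]) → SL_N(F((1/x)))` -/
noncomputable def empt (N : ℕ) (F : Type) [Field F] :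
    SpecialLinearGroup (Fin N) (Polynomial F) →* SLn N F :=
  SpecialLinearGroup.map psi

theorem empt_inj : Function.Injective (empt N F) := by
  intro γ γ' h
  refine Matrix.SpecialLinearGroup.ext _ _ fun i j => ?_
  have : psi (γ i j) = psi (γ' i j) :=
    congrArg (fun g : SLn N F => (g : Matrix (Fin N) (Fin N) (LS F)) i j) h
  exact psi_inj this

theorem range_empt : (empt N F).range = H515.slice₂ (Gam N F) (K₀ N F) := by
  ext x
  rw [H515.mem_slice₂]
  constructor
  · rintro ⟨γ, rfl⟩
    refine ⟨emb N F (SpecialLinearGroup.map Polynomial.toLaurent γ), ⟨_, rfl⟩, ?_, ?_⟩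
    · rw [mem_K₀]
      intro i j
      rw [emb_fst, norm_le_one_iff]
      intro l hl
      rw [cf_φ₁]
      exact coeff_toLaurent_neg _ hl
    · refine Matrix.SpecialLinearGroup.ext _ _ fun i j => ?_
      rw [emb_snd]
      rfl
  · rintro ⟨_, ⟨γ, rfl⟩, h1, rfl⟩
    rw [mem_K₀] at h1
    have h2 : ∀ i j, ∃ f : Polynomial F, Polynomial.toLaurent f = γ i j := by
      intro i j
      refine exists_toLaurent fun l hl => ?_
      have h3 := h1 i j
      rw [emb_fst, norm_le_one_iff] at h3
      rw [← cf_φ₁]
      exact h3 l hl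
    choose P hP using h2
    have hd : (Matrix.of P).det = 1 := by
      apply Polynomial.toLaurent_injective
      rw [map_one, RingHom.map_det]
      have : (Polynomial.toLaurent : Polynomial F →+* F[T;T⁻¹]).mapMatrix (Matrix.of P) = γ.1 := by
        ext1 i j
        exact hP i j
      rw [this]
      exact γ.2
    refine ⟨⟨Matrix.of P, hd⟩, ?_⟩
    refine Matrix.SpecialLinearGroup.ext _ _ fun i j => ?_
    rw [emb_snd]
    change φ₂ (Polynomial.toLaurent (P i j)) = _
    rw [hP]

/-- **`SL_N(F[x])` is a lattice in `SL_N(F((1/x)))`.** -/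
theorem isLattice_empt (N : ℕ) (F : Type) [Field F] [Finite F] (hN : 2 ≤ N) :
    H515.St.IsLattice (empt N F).range := by
  rw [range_empt]
  have h0 := isLattice_Gam N F hN
  have h1 := H515.slice₂_isLattice (⟨h0.disc, h0.covol⟩ : H515.IsLattice (Gam N F)) (K₀ N F)
    isOpen_K₀ isCompact_K₀
  exact ⟨h1.disc, h1.covol⟩

end poly

section conj

/-- Non-central elements of `SL_n(A)` have infinite conjugacy classes. -/
theorem infinite_conj {A : Type*} [CommRing A] [IsDomain A] [Infinite A] {n : ℕ}
    (g : SpecialLinearGroup (Fin n) A)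
    (hg : g ∉ Subgroup.center (SpecialLinearGroup (Fin n) A)) :
    Set.Infinite {y : SpecialLinearGroup (Fin n) A | ∃ h, y = h * g * h⁻¹} := by
  intro hfin
  apply hg
  have key : ∀ i j : Fin n, ∀ hij : i ≠ j, (∀ k, k ≠ i → g.1 k i = 0) ∧ g.1 i i = g.1 j j := by
    intro i j hij
    have hmaps : MapsTo (fun t : A => SpecialLinearGroup.transvection hij t * g *
        (SpecialLinearGroup.transvection hij t)⁻¹) univ
        {y : SpecialLinearGroup (Fin n) A | ∃ h, y = h * g * h⁻¹} :=
      fun t _ => ⟨_, rfl⟩
    obtain ⟨s, -, t, -, hst, heq⟩ := Set.infinite_univ.exists_ne_map_eq_of_mapsTo hmaps hfin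
    have hc : (s - t) ≠ 0 := fun h0 => hst (sub_eq_zero.1 h0)
    have h1 : SpecialLinearGroup.transvection hij (s - t) * g =
        g * SpecialLinearGroup.transvection hij (s - t) := by
      have e1 : SpecialLinearGroup.transvection hij (s - t) =
          (SpecialLinearGroup.transvection hij t)⁻¹ *
            SpecialLinearGroup.transvection hij s := by
        rw [eq_inv_mul_iff_mul_eq, H387.transvection_add', add_sub_cancel]
      have heq' : SpecialLinearGroup.transvection hij s * g *
        (SpecialLinearGroup.transvection hij s)⁻¹ =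
        SpecialLinearGroup.transvection hij t * g *
        (SpecialLinearGroup.transvection hij t)⁻¹ := heq
      have e2 : SpecialLinearGroup.transvection hij s * g =
          SpecialLinearGroup.transvection hij t * g *
          (SpecialLinearGroup.transvection hij t)⁻¹ *
          SpecialLinearGroup.transvection hij s := by
        rw [← heq']; group
      rw [e1, mul_assoc, e2]; group
    exact H387.entries_of_commute hc (congrArg Subtype.val h1)
  rcases Nat.eq_zero_or_pos n with rfl | hpos
  · rw [Subsingleton.elim g 1]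
    exact Subgroup.one_mem _
  set i0 : Fin n := ⟨0, hpos⟩
  have hscal : g.1 = Matrix.diagonal fun _ => g.1 i0 i0 := by
    ext i j
    by_cases hij : i = j
    · subst hij
      rw [Matrix.diagonal_apply_eq]
      by_cases h0 : i = i0
      · rw [h0]
      · exact (key i i0 h0).2
    · rw [Matrix.diagonal_apply_ne _ hij]
      exact (key j i (Ne.symm hij)).1 i hij
  refine Matrix.SpecialLinearGroup.mem_center_iff.2 ⟨g.1 i0 i0, ?_, ?_⟩
  · have h1 : g.1.det = 1 := g.2
    rw [hscal, Matrix.det_diagonal, Finset.prod_const, Finset.card_univ] at h1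
    exact h1
  · rw [Matrix.scalar_apply]
    exact hscal.symm

/-- **`PSL_n(A)` is ICC**, `A` an infinite domain. -/
theorem icc_psl {A : Type*} [CommRing A] [IsDomain A] [Infinite A] {n : ℕ} :
    ∀ g : SpecialLinearGroup (Fin n) A ⧸ Subgroup.center (SpecialLinearGroup (Fin n) A), g ≠ 1 →
      Set.Infinite {y | ∃ h, y = h * g * h⁻¹} :=
  H387.N.icc_quo _ H387.N.finite_center fun g hg => infinite_conj g hg

/-- `SL_n(A)` is ICC if `1` is the only `n`-th root of unity in the infinite domain `A`. -/
theorem icc_sl {A : Type*} [CommRing A] [IsDomain A] [Infinite A] {n : ℕ}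
    (hA : ∀ r : A, r ^ n = 1 → r = 1) (g : SpecialLinearGroup (Fin n) A) (hg : g ≠ 1) :
    Set.Infinite {y | ∃ h, y = h * g * h⁻¹} := by
  refine infinite_conj g fun hc => hg ?_
  obtain ⟨r, hr, h⟩ := Matrix.SpecialLinearGroup.mem_center_iff.1 hc
  rw [Fintype.card_fin] at hr
  have h1 := hA r hr
  subst h1
  refine Subtype.ext ?_
  rw [← h, map_one]
  rfl

/-- Roots of unity of `F[x]`. -/
theorem poly_root {F : Type} [Field F] [Finite F] {n : ℕ} (hn : n ≠ 0)
    (hc : Nat.Coprime n (Nat.card F - 1)) (p : Polynomial F) (hp : p ^ n = 1) : p = 1 := by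
  apply Polynomial.toLaurent_injective
  rw [map_one]
  refine eq_one_of_pow hn hc ?_
  rw [← map_pow, hp, map_one]

end conj

end Vale.Agent.P092.H678
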