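import Vale.Agent.P092.H790.Sec
import Vale.Agent.P092.H515.RkDef

/-!
P092 (helper678): a discrete subgroup of a perfect group is a lattice if the sum of the inverse orders
of the finite groups attached to the double cosets of a compact open subgroup is finite.
-/

open MeasureTheory Measure Set Topology
open scoped ENNReal NNReal Pointwise

namespace Vale.Agent.P092.H678

section ri

variable {G : Type*} [Group G] [TopologicalSpace G] [IsTopologicalGroup G] [LocallyCompactSpace G]

theorem modular_one (hperf : commutator G = ⊤) (g : G) : modularCharacterFun g = 1 := by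
  have h1 : commutator G ≤ (MonoidHom.toHomUnits (modularCharacter (G := G))).ker :=
    Abelianization.commutator_subset_ker _
  have h2 : g ∈ (MonoidHom.toHomUnits (modularCharacter (G := G))).ker :=
    h1 (hperf ▸ Subgroup.mem_top g)
  have h3 := congrArg (fun u : ℝ≥0ˣ => (u : ℝ≥0)) (MonoidHom.mem_ker.1 h2)
  exact h3

theorem map_right [SecondCountableTopology G] (hperf : commutator G = ⊤) [MeasurableSpace G]
    [BorelSpace G] (μ : Measure G) [IsHaarMeasure μ] (g : G) : map (· * g) μ = μ := by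
  rw [map_right_mul_eq_modularCharacterFun_smul μ g, modular_one hperf, one_smul]

end ri

section dom

variable {G : Type*} [Group G] [TopologicalSpace G] [IsTopologicalGroup G]
  [SecondCountableTopology G] (Γ : Subgroup G)

theorem isFundamentalDomain_sec [MeasurableSpace G] [BorelSpace G] [T2Space G]
    [MeasurableSpace (G ⧸ Γ)] [BorelSpace (G ⧸ Γ)] (μ : Measure G) (σ : G ⧸ Γ → G)
    (hσm : Measurable σ) (hσ : ∀ x, (σ x : G ⧸ Γ) = x) (g : G) :
    IsFundamentalDomain Γ.op {x : G | σ ((g * x : G) : G ⧸ Γ) = g * x} μ := by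
  have hmk : Measurable ((↑) : G → G ⧸ Γ) := continuous_quotient_mk'.measurable
  have hcoset : ∀ (x : G) (γ : Γ), ((x * γ : G) : G ⧸ Γ) = (x : G ⧸ Γ) := fun x γ =>
    QuotientGroup.mk_mul_of_mem x γ.2
  refine IsFundamentalDomain.mk' ?_ fun x => ?_
  · exact (measurableSet_eq_fun ((hσm.comp hmk).comp (measurable_const_mul g))
      (measurable_const_mul g)).nullMeasurableSet
  · have h1 : (g * x)⁻¹ * σ ((g * x : G) : G ⧸ Γ) ∈ Γ := by
      have h := Γ.inv_mem (QuotientGroup.eq.1 (hσ ((g * x : G) : G ⧸ Γ)))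
      simpa using h
    refine ⟨⟨MulOpposite.op ((g * x)⁻¹ * σ ((g * x : G) : G ⧸ Γ)), h1⟩, ?_, ?_⟩
    · change σ ((g * (x * ((g * x)⁻¹ * σ ((g * x : G) : G ⧸ Γ))) : G) : G ⧸ Γ) =
        g * (x * ((g * x)⁻¹ * σ ((g * x : G) : G ⧸ Γ)))
      rw [← mul_assoc, hcoset (g * x) ⟨_, h1⟩]
      group
    · intro γ hγ
      have h2 : σ ((g * (x * MulOpposite.unop γ.1) : G) : G ⧸ Γ) =
        g * (x * MulOpposite.unop γ.1) := hγ
      rw [← mul_assoc, hcoset (g * x) ⟨MulOpposite.unop γ.1, γ.2⟩] at h2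
      apply Subtype.ext
      apply MulOpposite.unop_injective
      change MulOpposite.unop γ.1 = (g * x)⁻¹ * σ ((g * x : G) : G ⧸ Γ)
      rw [h2]; group

end dom

section lat

variable {G : Type} [Group G] [TopologicalSpace G] [IsTopologicalGroup G] [LocallyCompactSpace G]
  [SecondCountableTopology G] [T2Space G]

omit [IsTopologicalGroup G] [LocallyCompactSpace G] [T2Space G] in
theorem countable_op (Γ : Subgroup G) [DiscreteTopology Γ] : Countable Γ.op := by
  have hcount : Countable Γ := TopologicalSpace.separableSpace_iff_countable.1 inferInstance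
  refine Function.Injective.countable (f := fun γ : Γ.op => (⟨MulOpposite.unop γ.1, γ.2⟩ : Γ))
    fun a b h => ?_
  have h1 := congrArg Subtype.val h
  exact Subtype.ext (MulOpposite.unop_injective h1)

omit [T2Space G] in
theorem inv_op (hperf : commutator G = ⊤) (Γ : Subgroup G) [MeasurableSpace G] [BorelSpace G]
    (μ : Measure G) [IsHaarMeasure μ] : SMulInvariantMeasure Γ.op G μ := by
  refine ⟨fun γ s hs => ?_⟩
  have h1 : (fun x : G => γ • x) = fun x => x * MulOpposite.unop γ.1 := rfl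
  rw [h1, ← map_apply (by fun_prop) hs, map_right hperf μ]

/-- The lattice criterion: fundamental domains have finite Haar measure. -/
theorem isLattice_of_fin (hperf : commutator G = ⊤) (Γ : Subgroup G) [DiscreteTopology Γ]
    (hfin : ∀ [MeasurableSpace G] [BorelSpace G] (μ : Measure G) [IsHaarMeasure μ] (F : Set G),
      IsFundamentalDomain Γ.op F μ → μ F < ⊤) : H515.St.IsLattice Γ := by
  borelize G
  let _ : MeasurableSpace (G ⧸ Γ) := borel _
  have hB : BorelSpace (G ⧸ Γ) := ⟨rfl⟩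
  obtain ⟨σ, hσm, hσ, -⟩ := H790.exists_section Γ
  obtain ⟨μ, hμ⟩ : ∃ μ : Measure G, μ = haar := ⟨_, rfl⟩
  have hH : IsHaarMeasure μ := by rw [hμ]; infer_instance
  have hcount' : Countable Γ.op := countable_op Γ
  have hmk : Measurable (fun x : G => (x : G ⧸ Γ)) := continuous_quotient_mk'.measurable
  have hinv : SMulInvariantMeasure Γ.op G μ := inv_op hperf Γ μ
  obtain ⟨F, hF⟩ : ∃ F : G → Set G, F = fun g => {x : G | σ ((g * x : G) : G ⧸ Γ) = g * x} :=
    ⟨_, rfl⟩
  have hdom : ∀ g, IsFundamentalDomain Γ.op (F g) μ := fun g => by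
    rw [hF]; exact isFundamentalDomain_sec Γ μ σ hσm hσ g
  have hFm : ∀ g, MeasurableSet (F g) := fun g => by
    rw [hF]
    exact measurableSet_eq_fun ((hσm.comp hmk).comp (measurable_const_mul g))
      (measurable_const_mul g)
  have hlt : μ (F 1) < ⊤ := hfin μ (F 1) (hdom 1)
  refine ⟨inferInstance, (μ.restrict (F 1)).map (fun x : G => (x : G ⧸ Γ)), ?_, ?_, ?_⟩
  · intro h0
    have h1 : ((μ.restrict (F 1)).map (fun x : G => (x : G ⧸ Γ))) univ = 0 := by
      rw [h0]; rfl
    rw [map_apply hmk MeasurableSet.univ, preimage_univ, restrict_apply_univ] at h1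
    exact (hdom 1).measure_ne_zero (NeZero.ne μ) h1
  · rw [map_apply hmk MeasurableSet.univ, preimage_univ, restrict_apply_univ]
    exact hlt
  · intro g s hs
    have hsm : MeasurableSet s := hs
    have hg : Measurable fun x : G ⧸ Γ => g • x := (continuous_const_smul g).measurable
    rw [map_apply hmk (hg hsm), map_apply hmk hsm, restrict_apply (hmk (hg hsm)),
      restrict_apply (hmk hsm)]
    have e1 : (fun x : G => (x : G ⧸ Γ)) ⁻¹' ((fun x => g • x) ⁻¹' s) ∩ F 1 =
        (fun x => g * x) ⁻¹' (((fun x : G => (x : G ⧸ Γ)) ⁻¹' s) ∩ F g⁻¹) := by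
      ext x
      simp only [hF, mem_inter_iff, mem_preimage, mem_ofPred_eq, one_mul, inv_mul_cancel_left]
      rfl
    rw [e1, measure_preimage_mul]
    refine IsFundamentalDomain.measure_set_eq (G := Γ.op) (hdom g⁻¹) (hdom 1) (hmk hsm) fun γ => ?_
    ext x
    change (((x * MulOpposite.unop γ.1 : G) : G ⧸ Γ) ∈ s) ↔ ((x : G ⧸ Γ) ∈ s)
    rw [QuotientGroup.mk_mul_of_mem x γ.2]

/-- A discrete subgroup `Γ` of a perfect group is a lattice if `G = ⋃ U g_i Γ`, with `U` a compact open
subgroup, and `∑ 1 / #(g_i Γ g_i⁻¹ ∩ U) < ∞`. -/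
theorem isLattice_of_cover (hperf : commutator G = ⊤) (Γ : Subgroup G) [DiscreteTopology Γ]
    (U : Subgroup G) (hUo : IsOpen (U : Set G)) (hUc : IsCompact (U : Set G)) {I : Type}
    [Countable I] (g : I → G) (hg : ∀ x : G, ∃ i, ∃ u ∈ U, ∃ γ ∈ Γ, x = u * g i * γ)
    (S : I → Finset Γ) (hS0 : ∀ i, (S i).Nonempty) (hS : ∀ i, ∀ γ ∈ S i, g i * γ * (g i)⁻¹ ∈ U)
    (hsum : Summable fun i => ((S i).card : ℝ)⁻¹) : H515.St.IsLattice Γ := by
  classical
  refine isLattice_of_fin hperf Γ fun {_ _} μ _ F hF => ?_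
  have hcount' : Countable Γ.op := countable_op Γ
  have hinv : SMulInvariantMeasure Γ.op G μ := inv_op hperf Γ μ
  obtain ⟨B, hB⟩ : ∃ B : I → Set G, B = fun i => {x | ∃ u ∈ U, ∃ γ ∈ Γ, x = u * g i * γ} :=
    ⟨_, rfl⟩
  have hUm : ∀ i, MeasurableSet {x : G | x * (g i)⁻¹ ∈ U} := fun i =>
    (hUo.preimage (continuous_mul_const (g i)⁻¹)).measurableSet
  have hUi : ∀ i, μ {x : G | x * (g i)⁻¹ ∈ U} = μ U := fun i => by
    have h1 := map_right hperf μ (g i)⁻¹
    have h2 := congrArg (fun ν : Measure G => ν (U : Set G)) h1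
    have h3 : map (fun x => x * (g i)⁻¹) μ (U : Set G) = μ (U : Set G) := h2
    rw [map_apply (by fun_prop) hUo.measurableSet] at h3
    exact h3
  have hBo : ∀ i, IsOpen (B i) := fun i => by
    have e : B i = ⋃ γ : Γ, {x | x * (γ : G)⁻¹ * (g i)⁻¹ ∈ U} := by
      ext x
      rw [hB]
      simp only [mem_ofPred_eq, mem_iUnion]
      constructor
      · rintro ⟨u, hu, γ, hγ, rfl⟩
        exact ⟨⟨γ, hγ⟩, by simpa [mul_assoc] using hu⟩
      · rintro ⟨γ, h⟩
        exact ⟨_, h, γ, γ.2, by group⟩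
    rw [e]
    refine isOpen_iUnion fun γ => ?_
    exact hUo.preimage (by fun_prop)
  have key : ∀ i, ((S i).card : ℝ≥0∞) * μ (B i ∩ F) ≤ μ U := by
    intro i
    rw [← hUi i]
    have h1 : μ {x : G | x * (g i)⁻¹ ∈ U} =
        ∑' γ : Γ.op, ∫⁻ x in F, ({x : G | x * (g i)⁻¹ ∈ U}.indicator 1 (γ • x)) ∂μ := by
      rw [← hF.lintegral_eq_tsum'', lintegral_indicator_one (hUm i)]
    rw [h1, ← lintegral_tsum fun γ => ?_]
    · have h2 : ((S i).card : ℝ≥0∞) * μ (B i ∩ F) = ∫⁻ x in F, (B i).indicator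
          (fun _ => ((S i).card : ℝ≥0∞)) x ∂μ := by
        rw [lintegral_indicator (hBo i).measurableSet, lintegral_const,
          restrict_apply_univ, restrict_apply (hBo i).measurableSet]
      rw [h2]
      refine lintegral_mono fun x => ?_
      by_cases hx : x ∈ B i
      · rw [indicator_of_mem hx]
        rw [hB] at hx
        obtain ⟨u, hu, γ₀, hγ₀, rfl⟩ := hx
        obtain ⟨f, hf⟩ : ∃ f : Γ → Γ.op, f = fun δ => ⟨MulOpposite.op (γ₀⁻¹ * δ),
            Γ.mul_mem (Γ.inv_mem hγ₀) δ.2⟩ := ⟨_, rfl⟩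
        have hfi : Function.Injective f := fun a b h => by
          rw [hf] at h
          have h3 := MulOpposite.op_injective (congrArg Subtype.val h)
          exact Subtype.ext (mul_left_cancel h3)
        have h4 : ∀ δ ∈ S i, ({x : G | x * (g i)⁻¹ ∈ U}.indicator (1 : G → ℝ≥0∞)
            (f δ • (u * g i * γ₀))) = 1 := fun δ hδ => by
          rw [indicator_of_mem]
          · rfl
          · rw [hf]
            change u * g i * γ₀ * (γ₀⁻¹ * δ) * (g i)⁻¹ ∈ U
            have e : u * g i * γ₀ * (γ₀⁻¹ * δ) * (g i)⁻¹ = u * (g i * δ * (g i)⁻¹) := by group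
            rw [e]
            exact U.mul_mem hu (hS i δ hδ)
        calc ((S i).card : ℝ≥0∞) = ∑ δ ∈ S i, (1 : ℝ≥0∞) := by simp
          _ = ∑ γ ∈ (S i).image f, ({x : G | x * (g i)⁻¹ ∈ U}.indicator (1 : G → ℝ≥0∞)
              (γ • (u * g i * γ₀))) := by
            rw [Finset.sum_image fun a _ b _ h => hfi h]
            exact Finset.sum_congr rfl fun δ hδ => (h4 δ hδ).symm
          _ ≤ _ := ENNReal.sum_le_tsum _
      · rw [indicator_of_notMem hx]; exact zero_le
    · exact ((measurable_one.indicator (hUm i)).comp (measurable_const_smul γ)).aemeasurable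
  have hUlt : μ (U : Set G) < ⊤ := hUc.measure_lt_top
  have hcov : F = ⋃ i, (B i ∩ F) := by
    rw [← iUnion_inter]
    refine (inter_eq_right.2 fun x _ => ?_).symm
    obtain ⟨i, u, hu, γ, hγ, h⟩ := hg x
    exact mem_iUnion.2 ⟨i, by rw [hB]; exact ⟨u, hu, γ, hγ, h⟩⟩
  have h0 : ∀ i, ((S i).card : ℝ≥0∞) ≠ 0 := fun i => by
    have := (hS0 i).card_pos
    exact_mod_cast this.ne'
  calc μ F ≤ ∑' i, μ (B i ∩ F) := by
        conv_lhs => rw [hcov]
        exact measure_iUnion_le _
    _ ≤ ∑' i, μ U * ((S i).card : ℝ≥0∞)⁻¹ := by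
      refine ENNReal.tsum_le_tsum fun i => ?_
      rw [← div_eq_mul_inv, ENNReal.le_div_iff_mul_le (Or.inl (h0 i))
        (Or.inl (ENNReal.natCast_ne_top _)), mul_comm]
      exact key i
    _ = μ U * ∑' i, ((S i).card : ℝ≥0∞)⁻¹ := ENNReal.tsum_mul_left
    _ < ⊤ := by
      refine ENNReal.mul_lt_top hUlt ?_
      have h5 : ∀ i, ((S i).card : ℝ≥0∞)⁻¹ = ENNReal.ofReal (((S i).card : ℝ)⁻¹) := fun i => by
        rw [ENNReal.ofReal_inv_of_pos (by exact_mod_cast (hS0 i).card_pos), ENNReal.ofReal_natCast]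
      simp_rw [h5]
      exact hsum.tsum_ofReal_lt_top

end lat

end Vale.Agent.P092.H678
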