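import Vale.Agent.P092.H678.Red
import Vale.Agent.P092.H678.TdLat
import Vale.Agent.P092.H899.Simple

/-!
P092 (helper678): `SL_N(F[t,1/t])`, `F` a finite field, `N ≥ 2`, is a lattice in
`SL_N(F((X))) × SL_N(F((X)))`.
-/

set_option linter.all false

open Topology Filter Set

namespace Vale.Agent.P092.H678

open scoped LaurentPolynomial
open Matrix

section summ

theorem summable_int {r : ℝ} (h0 : 0 ≤ r) (h1 : r < 1) : Summable fun z : ℤ => r ^ z.natAbs := by
  refine Summable.of_nat_of_neg ?_ ?_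
  · simpa using summable_geometric_of_lt_one h0 h1
  · simpa using summable_geometric_of_lt_one h0 h1

theorem summable_fin {r : ℝ} (h0 : 0 ≤ r) (h1 : r < 1) (N : ℕ) :
    Summable fun a : Fin N → ℤ => ∏ l, r ^ (a l).natAbs := by
  induction N with
  | zero => exact Summable.of_finite
  | succ N ih =>
    have h2 := (summable_int h0 h1).mul_of_nonneg ih (fun z => by positivity) (fun a => by positivity)
    refine ((Fin.consEquiv fun _ : Fin (N + 1) => ℤ).summable_iff).1 ?_
    refine h2.congr fun x => ?_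
    rw [Function.comp_apply, Fin.prod_univ_succ]
    rfl

end summ

section inst

variable {N : ℕ} {F : Type} [Field F] [Finite F]

instance : LocallyCompactSpace (SLn N F) := by
  haveI : LocallyCompactSpace (Matrix (Fin N) (Fin N) (LS F)) :=
    inferInstanceAs (LocallyCompactSpace (Fin N → Fin N → LS F))
  exact Matrix.SpecialLinearGroup.isClosedEmbedding_val.locallyCompactSpace

instance : SecondCountableTopology (SLn N F) := by
  haveI : SecondCountableTopology (Matrix (Fin N) (Fin N) (LS F)) :=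
    inferInstanceAs (SecondCountableTopology (Fin N → Fin N → LS F))
  exact Matrix.SpecialLinearGroup.isClosedEmbedding_val.isEmbedding.secondCountableTopology

theorem isCompact_K₀ : IsCompact (K₀ N F : Set (SLn N F)) :=
  H971.isCompact_bdd (N := N) (k := LS F) 1

omit [Finite F] in
theorem isOpen_K₀ : IsOpen (K₀ N F : Set (SLn N F)) := by
  refine Subgroup.isOpen_of_mem_nhds _ (g := 1) (H971.mem_nhds_of_near one_pos fun g hg i j => ?_)
  have h1 : (g : Matrix (Fin N) (Fin N) (LS F)) i j =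
      ((g : Matrix (Fin N) (Fin N) (LS F)) i j - (1 : Matrix (Fin N) (Fin N) (LS F)) i j) +
        (1 : Matrix (Fin N) (Fin N) (LS F)) i j := (sub_add_cancel _ _).symm
  rw [h1]
  refine (IsUltrametricDist.norm_add_le_max _ _).trans (max_le (hg i j) ?_)
  rw [Matrix.one_apply]
  split_ifs
  · rw [norm_one]
  · rw [norm_zero]; exact zero_le_one

/-- `K₀ × K₀` -/
noncomputable def U₀ (N : ℕ) (F : Type) [Field F] : Subgroup (SLn N F × SLn N F) := (K₀ N F).prod (K₀ N F)

theorem isCompact_U₀ : IsCompact (U₀ N F : Set (SLn N F × SLn N F)) := isCompact_K₀.prod isCompact_K₀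

omit [Finite F] in
theorem isOpen_U₀ : IsOpen (U₀ N F : Set (SLn N F × SLn N F)) := isOpen_K₀.prod isOpen_K₀

omit [Finite F] in
theorem infinite_LS : Infinite (LS F) := by
  refine Infinite.of_injective (fun n : ℕ => (X (n : ℤ) : LS F)) fun a b h => ?_
  have h1 := congrArg ord h
  simp only [ord_X] at h1
  exact_mod_cast h1

omit [Finite F] in
theorem commutator_top (hN : 2 ≤ N) : commutator (SLn N F × SLn N F) = ⊤ := by
  haveI : Nontrivial (Fin N) := Fin.nontrivial_iff_two_le.2 hN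
  haveI : Infinite (LS F) := infinite_LS
  have h1 : commutator (SLn N F) = ⊤ := H899.commutator_eq_top
  rw [commutator_def] at h1 ⊢
  rw [← Subgroup.top_prod_top, Subgroup.commutator_prod_prod, h1, Subgroup.top_prod_top]

end inst

section cover

variable {N : ℕ} {F : Type} [Field F]

/-- The representatives. -/
noncomputable def rep (a : {a : Fin N → ℤ // ∑ i, a i = 0}) : SLn N F × SLn N F := (1, dg a.1 a.2)

theorem exists_cover (hN : 2 ≤ N) (x : SLn N F × SLn N F) :
    ∃ a : {a : Fin N → ℤ // ∑ i, a i = 0}, ∃ u ∈ U₀ N F, ∃ γ ∈ Gam N F, x = u * rep a * γ := by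
  obtain ⟨γ₁, hγ₁⟩ : ∃ γ₁ : Gam N F, x.1 * (γ₁ : SLn N F × SLn N F).1⁻¹ ∈ K₀ N F := by
    have ho : IsOpen {y : SLn N F | x.1 * y⁻¹ ∈ K₀ N F} :=
      isOpen_K₀.preimage (by fun_prop : Continuous fun y : SLn N F => x.1 * y⁻¹)
    obtain ⟨γ, hγ⟩ := (dense_fst (F := F) hN).exists_mem_open ho
      ⟨x.1, by
        have : x.1 * x.1⁻¹ ∈ K₀ N F := by rw [mul_inv_cancel]; exact one_mem _
        exact this⟩
    exact ⟨γ, hγ⟩
  obtain ⟨γ, k, a, ha, h1, h2, h3⟩ := exists_reduce (x.2 * (γ₁ : SLn N F × SLn N F).2⁻¹)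
  refine ⟨⟨a, ha⟩, (x.1 * (γ₁ : SLn N F × SLn N F).1⁻¹ * (emb N F γ).1, k), ?_,
    (emb N F γ)⁻¹ * γ₁, ?_, ?_⟩
  · exact Subgroup.mem_prod.2 ⟨mul_mem hγ₁ h1, h2⟩
  · exact mul_mem (inv_mem ⟨γ, rfl⟩) γ₁.2
  · refine Prod.ext ?_ ?_
    · change x.1 = x.1 * (γ₁ : SLn N F × SLn N F).1⁻¹ * (emb N F γ).1 * 1 *
        ((emb N F γ).1⁻¹ * (γ₁ : SLn N F × SLn N F).1)
      group
    · change x.2 = k * dg a ha * ((emb N F γ).2⁻¹ * (γ₁ : SLn N F × SLn N F).2)
      rw [← h3]
      group

theorem dg_inv (a : Fin N → ℤ) (ha : ∑ i, a i = 0) (ha' : ∑ i, -a i = 0) :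
    (dg (F := F) a ha)⁻¹ = dg (fun i => -a i) ha' := by
  rw [inv_eq_iff_mul_eq_one]
  refine Subtype.ext ?_
  rw [Matrix.SpecialLinearGroup.coe_mul]
  change Matrix.diagonal _ * Matrix.diagonal _ = _
  rw [Matrix.diagonal_mul_diagonal]
  have : (fun i => (X (a i) * X (-a i) : LS F)) = 1 := by
    funext i
    rw [← X_add, add_neg_cancel]
    exact X_zero
  rw [this]
  exact Matrix.diagonal_one

theorem dg_conj (a : Fin N → ℤ) (ha : ∑ i, a i = 0) (M : SLn N F) (i j : Fin N) :
    ‖((dg a ha * M * (dg a ha)⁻¹ : SLn N F) : Matrix (Fin N) (Fin N) (LS F)) i j‖ =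
      2 ^ (a j - a i) * ‖(M : Matrix (Fin N) (Fin N) (LS F)) i j‖ := by
  have ha' : ∑ i, -a i = 0 := by rw [Finset.sum_neg_distrib, ha, neg_zero]
  rw [dg_inv a ha ha', Matrix.SpecialLinearGroup.coe_mul, Matrix.SpecialLinearGroup.coe_mul]
  change ‖(Matrix.diagonal (fun i => (X (a i) : LS F)) * (M : Matrix (Fin N) (Fin N) (LS F)) *
    Matrix.diagonal (fun i => (X (-a i) : LS F)) : Matrix (Fin N) (Fin N) (LS F)) i j‖ = _
  rw [Matrix.mul_diagonal, Matrix.diagonal_mul, norm_mul, norm_mul, norm_X, norm_X, neg_neg,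
    sub_eq_add_neg, zpow_add₀ two_ne_zero]
  ring

theorem exists_poly {m : ℕ} (c : Fin m → F) : ∃ p : F[T;T⁻¹], (∀ s : Fin m, p.coeff s = c s) ∧
    (∀ i < 0, p.coeff i = 0) ∧ ∀ i, (m : ℤ) ≤ i → p.coeff i = 0 := by
  obtain ⟨p, h1, h2⟩ := exists_trunc (ps fun s => if h : s < m then c ⟨s, h⟩ else 0) m
  refine ⟨p, fun s => ?_, fun i hi => ?_, h2⟩
  · rw [h1 _ (by exact_mod_cast s.2), cf_ps, dif_pos s.2]
  · rw [h1 _ (lt_of_lt_of_le hi (by positivity)), cf_ps_neg _ hi]

theorem exists_stab [Finite F] (hN : 2 ≤ N) (a : {a : Fin N → ℤ // ∑ i, a i = 0}) :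
    ∃ (S : Finset (Gam N F)) (m : ℕ), S.Nonempty ∧
      (∀ γ ∈ S, rep a * (γ : SLn N F × SLn N F) * (rep a)⁻¹ ∈ U₀ N F) ∧
      2 ^ m ≤ S.card ∧ ∀ l, (a.1 l).natAbs ≤ m := by
  classical
  have hne : (Finset.univ : Finset (Fin N)).Nonempty := ⟨⟨0, by omega⟩, Finset.mem_univ _⟩
  obtain ⟨i, -, hi⟩ := Finset.exists_max_image Finset.univ a.1 hne
  obtain ⟨j, -, hj⟩ := Finset.exists_min_image Finset.univ a.1 hne
  have hi0 : 0 ≤ a.1 i := by
    by_contra hc
    have : ∑ l, a.1 l < 0 := Finset.sum_neg (fun l _ => lt_of_le_of_lt (hi l (Finset.mem_univ l))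
      (not_le.1 hc)) hne
    rw [a.2] at this
    exact lt_irrefl _ this
  have hj0 : a.1 j ≤ 0 := by
    by_contra hc
    have : 0 < ∑ l, a.1 l := Finset.sum_pos (fun l _ => lt_of_lt_of_le (not_le.1 hc)
      (hj l (Finset.mem_univ l))) hne
    rw [a.2] at this
    exact lt_irrefl _ this
  obtain ⟨m, hm⟩ := Int.eq_ofNat_of_zero_le (show 0 ≤ a.1 i - a.1 j by omega)
  have hml : ∀ l, (a.1 l).natAbs ≤ m := by
    intro l
    have h1 := hi l (Finset.mem_univ l)
    have h2 := hj l (Finset.mem_univ l)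
    omega
  by_cases hij : i = j
  · subst hij
    refine ⟨{1}, m, Finset.singleton_nonempty _, ?_, ?_, hml⟩
    · intro γ hγ
      rw [Finset.mem_singleton] at hγ
      subst hγ
      have h1 : rep a * ((1 : Gam N F) : SLn N F × SLn N F) * (rep a)⁻¹ = 1 := by
        rw [Subgroup.coe_one, mul_one, mul_inv_cancel]
      rw [h1]
      exact one_mem _
    · have : m = 0 := by
        have := hm
        rw [sub_self] at this
        exact_mod_cast this.symm
      subst this
      rw [Finset.card_singleton]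
      norm_num
  · choose p hp1 hp2 hp3 using fun c : Fin m → F => exists_poly c
    have hfin : Finite (Fin m → F) := inferInstance
    letI : Fintype (Fin m → F) := Fintype.ofFinite _
    obtain ⟨f, hf⟩ : ∃ f : (Fin m → F) → Gam N F, f = fun c =>
      ⟨emb N F (SpecialLinearGroup.transvection hij (p c)), _, rfl⟩ := ⟨_, rfl⟩
    have hfi : Function.Injective f := by
      intro c c' h
      rw [hf] at h
      have h1 := emb_injective (congrArg Subtype.val h)
      have h2 : ((1 : Matrix (Fin N) (Fin N) F[T;T⁻¹]) + Matrix.single i j (p c)) i j =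
          ((1 : Matrix (Fin N) (Fin N) F[T;T⁻¹]) + Matrix.single i j (p c')) i j :=
        congrArg (fun M : SpecialLinearGroup (Fin N) F[T;T⁻¹] =>
          (M : Matrix (Fin N) (Fin N) F[T;T⁻¹]) i j) h1
      rw [Matrix.add_apply, Matrix.add_apply, Matrix.single_apply_same, Matrix.single_apply_same,
        add_right_inj] at h2
      funext s
      rw [← hp1 c s, ← hp1 c' s, h2]
    refine ⟨Finset.univ.image f, m, ?_, ?_, ?_, hml⟩
    · exact Finset.Nonempty.image ⟨fun _ => 0, Finset.mem_univ _⟩ f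
    · intro γ hγ
      obtain ⟨c, -, rfl⟩ := Finset.mem_image.1 hγ
      rw [hf]
      have h0 : ∀ q : ℤ, 0 < (2 : ℝ) ^ q := fun q => by positivity
      refine Subgroup.mem_prod.2 ⟨?_, ?_⟩
      · change 1 * (emb N F (SpecialLinearGroup.transvection hij (p c))).1 * 1⁻¹ ∈ K₀ N F
        rw [one_mul, inv_one, mul_one]
        intro u v
        rw [emb_fst]
        change ‖φ₁ (((1 : Matrix (Fin N) (Fin N) F[T;T⁻¹]) + Matrix.single i j (p c)) u v)‖ ≤ 1
        rw [Matrix.add_apply, map_add]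
        refine (IsUltrametricDist.norm_add_le_max _ _).trans (max_le ?_ ?_)
        · rw [← one_apply₁, Matrix.one_apply]
          split_ifs
          · rw [norm_one]
          · rw [norm_zero]; exact zero_le_one
        · rw [Matrix.single_apply]
          split_ifs
          · rw [norm_le_one_iff]
            intro s hs
            rw [cf_φ₁, hp2 c s hs]
          · rw [map_zero, norm_zero]; exact zero_le_one
      · change dg a.1 a.2 * (emb N F (SpecialLinearGroup.transvection hij (p c))).2 *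
          (dg a.1 a.2)⁻¹ ∈ K₀ N F
        intro u v
        rw [dg_conj, emb_snd]
        change _ * ‖φ₂ (((1 : Matrix (Fin N) (Fin N) F[T;T⁻¹]) + Matrix.single i j (p c)) u v)‖ ≤ 1
        rw [Matrix.add_apply, map_add, ← one_apply₂]
        by_cases huv : u = v
        · subst huv
          have h1 : ¬ (i = u ∧ j = u) := fun h => hij (h.1.trans h.2.symm)
          rw [Matrix.single_apply, if_neg h1, map_zero, add_zero, Matrix.one_apply_eq, norm_one,
            sub_self, zpow_zero, mul_one]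
        · rw [Matrix.one_apply_ne huv, zero_add, Matrix.single_apply]
          split_ifs with h
          · obtain ⟨rfl, rfl⟩ := h
            have h2 : ‖φ₂ (p c)‖ ≤ (2 : ℝ) ^ (-(-(m : ℤ))) := by
              rw [norm_le_iff]
              intro s hs
              rw [cf_φ₂, hp3 c _ (by omega)]
            have h3 : a.1 j - a.1 i = -(m : ℤ) := by rw [← neg_sub, hm]
            rw [h3]
            calc _ ≤ (2 : ℝ) ^ (-(m : ℤ)) * 2 ^ (-(-(m : ℤ))) :=
                  mul_le_mul_of_nonneg_left h2 (h0 _).le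
              _ = 1 := by rw [← zpow_add₀ two_ne_zero, add_neg_cancel, zpow_zero]
          · rw [map_zero, norm_zero, mul_zero]; exact zero_le_one
    · rw [Finset.card_image_of_injective _ hfi, Finset.card_univ, ← Nat.card_eq_fintype_card]
      rw [Nat.card_pi, Finset.prod_const, Finset.card_univ, Fintype.card_fin]
      refine Nat.pow_le_pow_left ?_ m
      exact Finite.one_lt_card

/-- **`SL_N(F[t,1/t])` is a lattice in `SL_N(F((X))) × SL_N(F((X)))`.** -/
theorem isLattice_Gam (N : ℕ) (F : Type) [Field F] [Finite F] (hN : 2 ≤ N) :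
    H515.St.IsLattice (Gam N F) := by
  choose S m hS0 hS hc hm using fun a => exists_stab (F := F) hN a
  refine isLattice_of_cover (commutator_top hN) (Gam N F) (U₀ N F) isOpen_U₀ isCompact_U₀
    (I := {a : Fin N → ℤ // ∑ i, a i = 0}) rep (exists_cover hN) S hS0 hS ?_
  obtain ⟨r, hr⟩ : ∃ r : ℝ, r = 1 + -(1 / (2 * N)) := ⟨_, rfl⟩
  have hN' : (2 : ℝ) ≤ N := by exact_mod_cast hN
  have h1 : 1 / (2 * (N : ℝ)) ≤ 1 / 4 := by
    refine one_div_le_one_div_of_le (by norm_num) (by linarith)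
  have h1' : 0 < 1 / (2 * (N : ℝ)) := by positivity
  have hr0 : 0 ≤ r := by rw [hr]; linarith
  have hr1 : r < 1 := by rw [hr]; linarith
  have hrN : 1 / 2 ≤ r ^ N := by
    rw [hr]
    refine le_trans ?_ (one_add_mul_le_pow (by linarith) N)
    have : (N : ℝ) * -(1 / (2 * N)) = -(1 / 2) := by field_simp
    rw [this]; norm_num
  refine Summable.of_nonneg_of_le (fun a => by positivity) (fun a => ?_)
    ((summable_fin hr0 hr1 N).comp_injective
      (Subtype.val_injective : Function.Injective fun a : {a : Fin N → ℤ // ∑ i, a i = 0} => a.1))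
  rw [Function.comp_apply]
  have h2 : ((S a).card : ℝ)⁻¹ ≤ ((2 : ℝ) ^ m a)⁻¹ := by
    refine inv_anti₀ (by positivity) ?_
    exact_mod_cast hc a
  refine h2.trans ?_
  have h3 : ((2 : ℝ) ^ m a)⁻¹ ≤ (r ^ N) ^ m a := by
    rw [← inv_pow]
    refine pow_le_pow_left₀ (by norm_num) ?_ _
    rw [← one_div]; exact hrN
  refine h3.trans ?_
  have h4 : (r ^ N) ^ m a = ∏ _l : Fin N, r ^ m a := by
    rw [Finset.prod_const, Finset.card_univ, Fintype.card_fin, ← pow_mul, ← pow_mul, mul_comm]
  rw [h4]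
  refine Finset.prod_le_prod (fun l _ => by positivity) fun l _ => ?_
  exact pow_le_pow_of_le_one hr0 hr1.le (hm a l)

end cover

end Vale.Agent.P092.H678
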