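import Vale.Agent.P092.H678.Icc

/-!
P092 (helper678), block [B-EX]: the explicit example for project B.
`Γ = SL_N(F[t,1/t])` (`F` a finite field, `N ≥ 2`) in `SL_N(F((X))) × SL_N(F((X)))` by `t ↦ X` and
`t ↦ 1/X`: a lattice, both projections injective with dense range, ICC if `gcd(N, |F| - 1) = 1`
(for example `F = ZMod 2`).
-/

set_option linter.all false

open Topology Filter Set

namespace Vale.Agent.P092.H678

open scoped LaurentPolynomial
open Matrix

/-- The abstract group `SL_N(F[t,1/t])` is `Γ`. -/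
noncomputable def GamEquiv (N : ℕ) (F : Type) [Field F] :
    Matrix.SpecialLinearGroup (Fin N) F[T;T⁻¹] ≃* Gam N F :=
  MonoidHom.ofInjective emb_injective

/-- All properties together. -/
theorem summary (N : ℕ) (F : Type) [Field F] [Finite F] (hN : 2 ≤ N)
    (hc : Nat.Coprime N (Nat.card F - 1)) :
    H515.St.IsLattice (Gam N F) ∧
    (DenseRange fun γ : Gam N F => (γ : SLn N F × SLn N F).1) ∧
    (DenseRange fun γ : Gam N F => (γ : SLn N F × SLn N F).2) ∧
    (Function.Injective fun γ : Gam N F => (γ : SLn N F × SLn N F).1) ∧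
    (Function.Injective fun γ : Gam N F => (γ : SLn N F × SLn N F).2) ∧
    (∀ g : Gam N F, g ≠ 1 → Set.Infinite {y : Gam N F | ∃ h, y = h * g * h⁻¹}) :=
  ⟨isLattice_Gam N F hN, dense_fst hN, dense_snd hN, fst_injective, snd_injective, icc_Gam hN hc⟩

theorem coprime_two (N : ℕ) : Nat.Coprime N (Nat.card (ZMod 2) - 1) := by
  rw [Nat.card_zmod]
  exact Nat.coprime_one_right N

/-- `SL_N(𝔽_2[t,1/t])`, `N ≥ 2`. -/
theorem summary_two (N : ℕ) (hN : 2 ≤ N) :
    H515.St.IsLattice (Gam N (ZMod 2)) ∧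
    (DenseRange fun γ : Gam N (ZMod 2) => (γ : SLn N (ZMod 2) × SLn N (ZMod 2)).1) ∧
    (DenseRange fun γ : Gam N (ZMod 2) => (γ : SLn N (ZMod 2) × SLn N (ZMod 2)).2) ∧
    (Function.Injective fun γ : Gam N (ZMod 2) => (γ : SLn N (ZMod 2) × SLn N (ZMod 2)).1) ∧
    (Function.Injective fun γ : Gam N (ZMod 2) => (γ : SLn N (ZMod 2) × SLn N (ZMod 2)).2) ∧
    (∀ g : Gam N (ZMod 2), g ≠ 1 → Set.Infinite {y : Gam N (ZMod 2) | ∃ h, y = h * g * h⁻¹}) :=
  summary N (ZMod 2) hN (coprime_two N)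

end Vale.Agent.P092.H678
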