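import Vale.Agent.P092.H678.Ring
import Vale.Agent.P092.H971.GF1

/-!
P092 (helper678): the group `Γ = SL_N(F[t,1/t])` in `SL_N(F((X))) × SL_N(F((X)))`: discreteness,
injectivity and density of the two projections.
-/

set_option linter.all false

open Topology Filter Set

namespace Vale.Agent.P092.H678

open scoped LaurentPolynomial
open Matrix

/-- `SL_N(F((X)))` -/
abbrev SLn (N : ℕ) (F : Type) [Field F] : Type := SpecialLinearGroup (Fin N) (LS F)

/-- The diagonal embedding of `SL_N(F[t,1/t])`. -/
noncomputable def emb (N : ℕ) (F : Type) [Field F] :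
    SpecialLinearGroup (Fin N) F[T;T⁻¹] →* SLn N F × SLn N F :=
  (SpecialLinearGroup.map φ₁).prod (SpecialLinearGroup.map φ₂)

/-- `Γ = SL_N(F[t,1/t])`, diagonally embedded. -/
noncomputable def Gam (N : ℕ) (F : Type) [Field F] : Subgroup (SLn N F × SLn N F) := (emb N F).range

variable {N : ℕ} {F : Type} [Field F]

theorem emb_fst (γ : SpecialLinearGroup (Fin N) F[T;T⁻¹]) (i j : Fin N) :
    ((emb N F γ).1 : Matrix (Fin N) (Fin N) (LS F)) i j = φ₁ (γ i j) := rfl

theorem emb_snd (γ : SpecialLinearGroup (Fin N) F[T;T⁻¹]) (i j : Fin N) :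
    ((emb N F γ).2 : Matrix (Fin N) (Fin N) (LS F)) i j = φ₂ (γ i j) := rfl

theorem one_apply₁ (i j : Fin N) : (1 : Matrix (Fin N) (Fin N) (LS F)) i j =
    φ₁ ((1 : Matrix (Fin N) (Fin N) F[T;T⁻¹]) i j) := by
  rw [Matrix.one_apply, Matrix.one_apply]
  split_ifs
  · rw [map_one]
  · rw [map_zero]

theorem one_apply₂ (i j : Fin N) : (1 : Matrix (Fin N) (Fin N) (LS F)) i j =
    φ₂ ((1 : Matrix (Fin N) (Fin N) F[T;T⁻¹]) i j) := by
  rw [Matrix.one_apply, Matrix.one_apply]
  split_ifs
  · rw [map_one]
  · rw [map_zero]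

/-- `Γ` is discrete. -/
theorem discrete_Gam (N : ℕ) (F : Type) [Field F] : DiscreteTopology (Gam N F) := by
  refine discreteTopology_of_isOpen_singleton_one ?_
  have hU1 : {g : SLn N F | H971.near 2⁻¹ g} ∈ 𝓝 (1 : SLn N F) :=
    H971.mem_nhds_of_near (by norm_num : (0 : ℝ) < 2⁻¹) fun g hg => hg
  have hU2 : {g : SLn N F | H971.near 1 g} ∈ 𝓝 (1 : SLn N F) :=
    H971.mem_nhds_of_near (by norm_num : (0 : ℝ) < 1) fun g hg => hg
  have hU : {g : SLn N F | H971.near 2⁻¹ g} ×ˢ {g : SLn N F | H971.near 1 g} ∈
      𝓝 (1 : SLn N F × SLn N F) := prod_mem_nhds hU1 hU2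
  have h1 : ((↑) : Gam N F → SLn N F × SLn N F) ⁻¹'
      ({g : SLn N F | H971.near 2⁻¹ g} ×ˢ {g : SLn N F | H971.near 1 g}) ∈ 𝓝 (1 : Gam N F) :=
    continuous_subtype_val.continuousAt hU
  have h2 : ((↑) : Gam N F → SLn N F × SLn N F) ⁻¹'
      ({g : SLn N F | H971.near 2⁻¹ g} ×ˢ {g : SLn N F | H971.near 1 g}) = {1} := by
    ext ⟨g, hg⟩
    rw [mem_preimage, mem_singleton_iff]
    constructor
    · rintro ⟨ha, hb⟩
      obtain ⟨γ, rfl⟩ := hg
      have hγ : γ = 1 := by
        refine Subtype.ext (Matrix.ext fun i j => ?_)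
        have ha' := ha i j
        have hb' := hb i j
        rw [emb_fst, one_apply₁, ← map_sub] at ha'
        rw [emb_snd, one_apply₂, ← map_sub] at hb'
        exact sub_eq_zero.1 (eq_zero_of_small ha' hb')
      subst hγ
      exact Subtype.ext (map_one _)
    · intro h
      rw [h]
      exact mem_of_mem_nhds hU
  rw [h2] at h1
  have h3 := mem_interior_iff_mem_nhds.2 h1
  have h4 : interior ({1} : Set (Gam N F)) = {1} :=
    subset_antisymm interior_subset (singleton_subset_iff.2 h3)
  rw [← h4]
  exact isOpen_interior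

instance : DiscreteTopology (Gam N F) := discrete_Gam N F

theorem fst_injective : Function.Injective fun γ : Gam N F => (γ : SLn N F × SLn N F).1 := by
  rintro ⟨_, γ, rfl⟩ ⟨_, γ', rfl⟩ h
  have h' : (emb N F γ).1 = (emb N F γ').1 := h
  have : γ = γ' := by
    refine Matrix.SpecialLinearGroup.ext _ _ fun i j => ?_
    have : φ₁ (γ i j) = φ₁ (γ' i j) :=
      congrArg (fun g : SLn N F => (g : Matrix (Fin N) (Fin N) (LS F)) i j) h'
    exact φ₁_inj this
  subst this
  rfl

theorem snd_injective : Function.Injective fun γ : Gam N F => (γ : SLn N F × SLn N F).2 := by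
  rintro ⟨_, γ, rfl⟩ ⟨_, γ', rfl⟩ h
  have h' : (emb N F γ).2 = (emb N F γ').2 := h
  have : γ = γ' := by
    refine Matrix.SpecialLinearGroup.ext _ _ fun i j => ?_
    have : φ₂ (γ i j) = φ₂ (γ' i j) :=
      congrArg (fun g : SLn N F => (g : Matrix (Fin N) (Fin N) (LS F)) i j) h'
    exact φ₂_inj this
  subst this
  rfl

theorem emb_injective : Function.Injective (emb N F) := by
  intro γ γ' h
  refine Matrix.SpecialLinearGroup.ext _ _ fun i j => ?_
  have : φ₁ (γ i j) = φ₁ (γ' i j) :=
    congrArg (fun g : SLn N F × SLn N F => (g.1 : Matrix (Fin N) (Fin N) (LS F)) i j) h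
  exact φ₁_inj this

/-- Density of a map between special linear groups induced by a dense ring homomorphism. -/
theorem denseRange_map {A : Type} [CommRing A] {k : Type} [NontriviallyNormedField k]
    {n : Type} [Fintype n] [DecidableEq n] [Nontrivial n]
    {φ : A →+* k} (hφ : DenseRange φ) :
    Dense ((SpecialLinearGroup.map φ : SpecialLinearGroup n A →* SpecialLinearGroup n k).range :
      Set (SpecialLinearGroup n k)) := by
  obtain ⟨V, hV⟩ : ∃ V : Subgroup (SpecialLinearGroup n k), V =
    (SpecialLinearGroup.map φ : SpecialLinearGroup n A →* SpecialLinearGroup n k).range.topologicalClosure :=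
      ⟨_, rfl⟩
  have hVt : V = ⊤ := by
    refine H971.eq_top_of_e fun i j hij s => ?_
    have hc : Continuous fun s : k => (H971.e hij s : SpecialLinearGroup n k) := by
      refine Continuous.subtype_mk ?_ _
      have h1 : Continuous fun s : k => (1 : Matrix n n k) + Matrix.single i j s := by
        refine continuous_const.add ?_
        refine continuous_matrix fun a b => ?_
        simp only [Matrix.single_apply]
        by_cases h : i = a ∧ j = b
        · simp only [if_pos h]; exact continuous_id
        · simp only [if_neg h]; exact continuous_const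
      exact h1
    have h2 : IsClosed {s : k | (H971.e hij s : SpecialLinearGroup n k) ∈ V} := by
      rw [hV]
      exact (Subgroup.isClosed_topologicalClosure _).preimage hc
    have h3 : ∀ x : k, x ∈ {s : k | (H971.e hij s : SpecialLinearGroup n k) ∈ V} := by
      have h4 : closure (range φ) ⊆ {s : k | (H971.e hij s : SpecialLinearGroup n k) ∈ V} := by
        refine closure_minimal ?_ h2
        rintro _ ⟨p, rfl⟩
        rw [mem_setOf_eq, hV]
        refine Subgroup.le_topologicalClosure _ ⟨SpecialLinearGroup.transvection hij p, ?_⟩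
        refine Subtype.ext (Matrix.ext fun a b => ?_)
        change φ (((1 : Matrix n n A) + Matrix.single i j p) a b) =
          ((1 : Matrix n n k) + Matrix.single i j (φ p)) a b
        rw [Matrix.add_apply, Matrix.add_apply, map_add, Matrix.single_apply, Matrix.single_apply,
          Matrix.one_apply, Matrix.one_apply]
        congr 1
        · split_ifs
          · rw [map_one]
          · rw [map_zero]
        · split_ifs
          · rfl
          · rw [map_zero]
      intro x
      exact h4 (hφ x)
    exact h3 s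
  have h5 : closure ((SpecialLinearGroup.map φ : SpecialLinearGroup n A →* SpecialLinearGroup n k).range :
      Set (SpecialLinearGroup n k)) = Set.univ := by
    have : ((SpecialLinearGroup.map φ : SpecialLinearGroup n A →* SpecialLinearGroup n k).range.topologicalClosure : Set (SpecialLinearGroup n k)) = Set.univ := by
      rw [← hV, hVt]; rfl
    exact this
  exact dense_iff_closure_eq.2 h5

theorem dense_fst (hN : 2 ≤ N) : DenseRange fun γ : Gam N F => (γ : SLn N F × SLn N F).1 := by
  haveI : Nontrivial (Fin N) := Fin.nontrivial_iff_two_le.2 hN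
  refine (denseRange_map (n := Fin N) (denseRange_φ₁ (F := F))).mono ?_
  rintro _ ⟨γ, rfl⟩
  exact ⟨⟨emb N F γ, γ, rfl⟩, rfl⟩

theorem dense_snd (hN : 2 ≤ N) : DenseRange fun γ : Gam N F => (γ : SLn N F × SLn N F).2 := by
  haveI : Nontrivial (Fin N) := Fin.nontrivial_iff_two_le.2 hN
  refine (denseRange_map (n := Fin N) (denseRange_φ₂ (F := F))).mono ?_
  rintro _ ⟨γ, rfl⟩
  exact ⟨⟨emb N F γ, γ, rfl⟩, rfl⟩

end Vale.Agent.P092.H678
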