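import Vale.Agent.P092.H678.Cover
import Vale.Agent.P092.H971.GF2

/-!
P092 (helper678): `SL_N(F[t,1/t])` is ICC if `gcd(N, |F| - 1) = 1`; the summary theorem.
-/

set_option linter.all false

open Topology Filter Set

namespace Vale.Agent.P092.H678

open scoped LaurentPolynomial
open Matrix

variable {N : ℕ} {F : Type} [Field F]

theorem emb_e₁ {i j : Fin N} (hij : i ≠ j) (p : F[T;T⁻¹]) :
    (emb N F (Matrix.SpecialLinearGroup.transvection hij p)).1 = (H971.e hij (φ₁ p) : SLn N F) := by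
  refine Matrix.SpecialLinearGroup.ext _ _ fun u v => ?_
  rw [emb_fst]
  change φ₁ (((1 : Matrix (Fin N) (Fin N) F[T;T⁻¹]) + Matrix.single i j p) u v) =
    ((1 : Matrix (Fin N) (Fin N) (LS F)) + Matrix.single i j (φ₁ p)) u v
  rw [Matrix.add_apply, Matrix.add_apply, map_add, ← one_apply₁, Matrix.single_apply,
    Matrix.single_apply]
  congr 1
  split_ifs
  · rfl
  · exact map_zero _

/-- An element with finite conjugacy class is central in `SL_N(F((X)))`. -/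
theorem central_of_finite {γ : SpecialLinearGroup (Fin N) F[T;T⁻¹]}
    (hfin : Set.Finite {y : SpecialLinearGroup (Fin N) F[T;T⁻¹] | ∃ h, y = h * γ * h⁻¹}) :
    (emb N F γ).1 ∈ Subgroup.center (SLn N F) := by
  refine H971.mem_center_of_commute fun i j hij => ?_
  obtain ⟨t, ht⟩ : ∃ t : ℕ → SpecialLinearGroup (Fin N) F[T;T⁻¹], t = fun n : ℕ =>
    Matrix.SpecialLinearGroup.transvection hij (LaurentPolynomial.T (n : ℤ)) := ⟨_, rfl⟩
  obtain ⟨f, hf⟩ : ∃ f : ℕ → SpecialLinearGroup (Fin N) F[T;T⁻¹], f = fun n =>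
    t n * γ * (t n)⁻¹ := ⟨_, rfl⟩
  have hmt : MapsTo f Set.univ {y : SpecialLinearGroup (Fin N) F[T;T⁻¹] | ∃ h, y = h * γ * h⁻¹} := by
    intro n _
    rw [hf]
    exact ⟨t n, rfl⟩
  obtain ⟨a, -, b, -, hab, he⟩ := Set.infinite_univ.exists_ne_map_eq_of_mapsTo hmt hfin
  rw [hf] at he
  simp only at he
  have h1 := congrArg (fun g => (emb N F g).1) he
  simp only [map_mul, map_inv, Prod.fst_mul, Prod.fst_inv] at h1
  have h2 : ∀ n : ℕ, (emb N F (t n)).1 = (H971.e hij (X (n : ℤ)) : SLn N F) := by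
    intro n
    rw [ht, emb_e₁, φ₁_T]
  rw [h2, h2] at h1
  refine ⟨X (a : ℤ) - X (b : ℤ), ?_, ?_⟩
  · intro h0
    have h3 := congrArg ord (sub_eq_zero.1 h0)
    rw [ord_X, ord_X] at h3
    exact hab (by exact_mod_cast h3)
  · obtain ⟨A, hA⟩ : ∃ A : SLn N F, A = H971.e hij (X (a : ℤ)) := ⟨_, rfl⟩
    obtain ⟨B, hB⟩ : ∃ B : SLn N F, B = H971.e hij (X (b : ℤ)) := ⟨_, rfl⟩
    obtain ⟨g, hg⟩ : ∃ g : SLn N F, g = (emb N F γ).1 := ⟨_, rfl⟩
    have h3 : (H971.e hij (X (a : ℤ) - X (b : ℤ)) : SLn N F) = B⁻¹ * A := by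
      rw [hA, hB, H971.e_inv, H971.e_mul]
      congr 1
      ring
    rw [h3, ← hg]
    rw [← hA, ← hB, ← hg] at h1
    have h4 : g * (B⁻¹ * A) = B⁻¹ * (B * g * B⁻¹) * A := by group
    rw [h4, ← h1]
    group

/-- A Laurent polynomial which is a root of unity is constant. -/
theorem eq_C_of_pow {p : F[T;T⁻¹]} {n : ℕ} (hn : n ≠ 0) (hp : p ^ n = 1) :
    p = LaurentPolynomial.C (p.coeff 0) := by
  have h1 : ‖φ₁ p‖ = 1 := by
    have : ‖φ₁ p‖ ^ n = 1 := by rw [← norm_pow, ← map_pow, hp, map_one, norm_one]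
    exact (pow_eq_one_iff_of_nonneg (norm_nonneg _) hn).1 this
  have h2 : ‖φ₂ p‖ = 1 := by
    have : ‖φ₂ p‖ ^ n = 1 := by rw [← norm_pow, ← map_pow, hp, map_one, norm_one]
    exact (pow_eq_one_iff_of_nonneg (norm_nonneg _) hn).1 this
  have h1' := norm_le_one_iff.1 h1.le
  have h2' := norm_le_one_iff.1 h2.le
  refine LaurentPolynomial.ext fun i => ?_
  rw [LaurentPolynomial.C_apply]
  rcases lt_trichotomy i 0 with h | h | h
  · rw [if_neg h.ne, ← cf_φ₁, h1' i h]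
  · subst h; rw [if_pos rfl]
  · rw [if_neg h.ne']
    have h3 := h2' (-i) (by omega)
    rw [cf_φ₂, neg_neg] at h3
    exact h3

theorem eq_one_of_pow [Finite F] {p : F[T;T⁻¹]} {n : ℕ} (hn : n ≠ 0)
    (hc : Nat.Coprime n (Nat.card F - 1)) (hp : p ^ n = 1) : p = 1 := by
  have h1 := eq_C_of_pow hn hp
  obtain ⟨c, hcc⟩ : ∃ c, c = p.coeff 0 := ⟨_, rfl⟩
  rw [← hcc] at h1
  have h2 : c ^ n = 1 := by
    rw [h1, ← map_pow] at hp
    have h3 := congrArg (fun q : F[T;T⁻¹] => q.coeff 0) hp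
    simp only [LaurentPolynomial.C_apply, if_true] at h3
    rw [h3, ← LaurentPolynomial.T_zero, LaurentPolynomial.T_apply, if_pos rfl]
  have hc0 : c ≠ 0 := by
    rintro rfl
    rw [zero_pow hn] at h2
    exact zero_ne_one h2
  letI : Fintype F := Fintype.ofFinite F
  have h3 : c ^ (Nat.card F - 1) = 1 := by
    rw [Nat.card_eq_fintype_card]
    exact FiniteField.pow_card_sub_one_eq_one c hc0
  have h4 : c = 1 := by
    have h5 := pow_gcd_eq_one.2 ⟨h2, h3⟩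
    rw [hc, pow_one] at h5
    exact h5
  rw [h1, h4, map_one]

/-- Trivial centre. -/
theorem eq_one_of_central [Finite F] (hN : 2 ≤ N) (hc : Nat.Coprime N (Nat.card F - 1))
    {γ : SpecialLinearGroup (Fin N) F[T;T⁻¹]} (h : (emb N F γ).1 ∈ Subgroup.center (SLn N F)) :
    γ = 1 := by
  obtain ⟨r, hr1, hr2⟩ := Matrix.SpecialLinearGroup.mem_center_iff.1 h
  rw [Fintype.card_fin] at hr1
  have h1 : ∀ i j, φ₁ (γ i j) = if i = j then r else 0 := by
    intro i j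
    rw [← emb_fst, ← hr2, Matrix.scalar_apply, Matrix.diagonal_apply]
  have h2 : ∀ i, γ i i = 1 := by
    intro i
    refine eq_one_of_pow (n := N) (by omega) hc (φ₁_inj ?_)
    rw [map_pow, h1, if_pos rfl, hr1, map_one]
  refine Matrix.SpecialLinearGroup.ext _ _ fun i j => ?_
  rw [Matrix.SpecialLinearGroup.coe_one, Matrix.one_apply]
  split_ifs with hij
  · subst hij; exact h2 i
  · refine φ₁_inj ?_
    rw [h1, if_neg hij, map_zero]

/-- `SL_N(F[t,1/t])` is ICC if `gcd(N, |F| - 1) = 1`. -/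
theorem icc_SL [Finite F] (hN : 2 ≤ N) (hc : Nat.Coprime N (Nat.card F - 1))
    (γ : SpecialLinearGroup (Fin N) F[T;T⁻¹]) (hγ : γ ≠ 1) :
    Set.Infinite {y : SpecialLinearGroup (Fin N) F[T;T⁻¹] | ∃ h, y = h * γ * h⁻¹} :=
  fun hfin => hγ (eq_one_of_central hN hc (central_of_finite hfin))

/-- `Γ` is ICC if `gcd(N, |F| - 1) = 1`. -/
theorem icc_Gam [Finite F] (hN : 2 ≤ N) (hc : Nat.Coprime N (Nat.card F - 1))
    (g : Gam N F) (hg : g ≠ 1) : Set.Infinite {y : Gam N F | ∃ h, y = h * g * h⁻¹} := by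
  obtain ⟨_, γ, rfl⟩ := g
  have hγ : γ ≠ 1 := by
    rintro rfl
    exact hg (Subtype.ext (map_one _))
  haveI : Infinite {y : SpecialLinearGroup (Fin N) F[T;T⁻¹] | ∃ h, y = h * γ * h⁻¹} :=
    (icc_SL hN hc γ hγ).to_subtype
  refine Set.infinite_of_injective_forall_mem
    (f := fun y : {y : SpecialLinearGroup (Fin N) F[T;T⁻¹] | ∃ h, y = h * γ * h⁻¹} =>
      (⟨emb N F y.1, _, rfl⟩ : Gam N F)) ?_ ?_
  · exact fun a b hab => Subtype.ext (emb_injective (congrArg Subtype.val hab))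
  · rintro ⟨y, h, rfl⟩
    refine ⟨⟨emb N F h, _, rfl⟩, Subtype.ext ?_⟩
    change emb N F (h * γ * h⁻¹) = emb N F h * emb N F γ * (emb N F h)⁻¹
    rw [map_mul, map_mul, map_inv]

end Vale.Agent.P092.H678
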