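import Mathlib

/-!
P092 (helper678): the field of Laurent series over a finite field as a local field.
-/

set_option linter.all false

open Topology Filter Set

namespace Vale.Agent.P092.H678

/-- The field `F((X))`, without the topology which Mathlib puts on `LaurentSeries`. -/
def LS (F : Type) [Field F] : Type := HahnSeries ℤ F

section basic

variable {F : Type} [Field F]

noncomputable instance : Field (LS F) := inferInstanceAs (Field (HahnSeries ℤ F))

/-- the coefficients -/
def cf (f : LS F) (i : ℤ) : F := HahnSeries.coeff (f : HahnSeries ℤ F) i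

theorem ext_cf {f g : LS F} (h : ∀ i, cf f i = cf g i) : f = g :=
  HahnSeries.ext (funext h)

theorem cf_add (f g : LS F) (i : ℤ) : cf (f + g) i = cf f i + cf g i := rfl

theorem cf_sub (f g : LS F) (i : ℤ) : cf (f - g) i = cf f i - cf g i := by
  have h := cf_add (f - g) g i
  rw [sub_add_cancel] at h
  rw [h]; ring

theorem cf_neg (f : LS F) (i : ℤ) : cf (-f) i = -cf f i := by
  have h := cf_sub 0 f i
  rw [zero_sub] at h
  rw [h]
  change (0 : F) - _ = _
  ring

theorem cf_zero (i : ℤ) : cf (0 : LS F) i = 0 := rfl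

/-- the order -/
noncomputable def ord (f : LS F) : ℤ := HahnSeries.order (f : HahnSeries ℤ F)

theorem ord_mul {f g : LS F} (hf : f ≠ 0) (hg : g ≠ 0) : ord (f * g) = ord f + ord g :=
  HahnSeries.order_mul hf hg

theorem cf_ord {f : LS F} (hf : f ≠ 0) : cf f (ord f) ≠ 0 := by
  have h : HahnSeries.coeff (f : HahnSeries ℤ F) (HahnSeries.order (f : HahnSeries ℤ F)) ≠ 0 := by
    intro h0
    exact hf (HahnSeries.coeff_order_eq_zero.1 h0)
  exact h

theorem cf_of_lt {f : LS F} {i : ℤ} (h : i < ord f) : cf f i = 0 :=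
  HahnSeries.coeff_eq_zero_of_lt_order h

theorem le_ord {f : LS F} (hf : f ≠ 0) {N : ℤ} (h : ∀ i < N, cf f i = 0) : N ≤ ord f := by
  by_contra hc
  exact cf_ord hf (h _ (not_le.1 hc))

open Classical in
/-- The absolute value `2^(-ord)`. -/
noncomputable def absLS : AbsoluteValue (LS F) ℝ := {
    toFun := fun f => if f = 0 then 0 else (2 : ℝ) ^ (-ord f)
    map_mul' := fun f g => by
      by_cases hf : f = 0
      · simp [hf]
      by_cases hg : g = 0
      · simp [hg]
      rw [if_neg (mul_ne_zero hf hg), if_neg hf, if_neg hg, ord_mul hf hg, neg_add,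
        zpow_add₀ two_ne_zero]
    nonneg' := fun f => by
      split_ifs
      · exact le_refl _
      · positivity
    eq_zero' := fun f => by
      constructor
      · intro h
        by_contra hf
        rw [if_neg hf] at h
        exact (zpow_pos (by norm_num : (0 : ℝ) < 2) _).ne' h
      · intro h; rw [if_pos h]
    add_le' := fun f g => by
      by_cases hf : f = 0
      · simp [hf]
      by_cases hg : g = 0
      · simp [hg]
      by_cases hfg : f + g = 0
      · rw [if_pos hfg, if_neg hf, if_neg hg]; positivity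
      rw [if_neg hfg, if_neg hf, if_neg hg]
      have h1 : min (ord f) (ord g) ≤ ord (f + g) := le_ord hfg fun i hi => by
        rw [cf_add, cf_of_lt (lt_of_lt_of_le hi (min_le_left _ _)),
          cf_of_lt (lt_of_lt_of_le hi (min_le_right _ _)), add_zero]
      have h2 : (2 : ℝ) ^ (-ord (f + g)) ≤ (2 : ℝ) ^ (-min (ord f) (ord g)) :=
        zpow_le_zpow_right₀ (by norm_num) (neg_le_neg h1)
      have h3 : (0 : ℝ) < 2 ^ (-ord f) := by positivity
      have h4 : (0 : ℝ) < 2 ^ (-ord g) := by positivity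
      rcases le_total (ord f) (ord g) with h | h
      · rw [min_eq_left h] at h2; linarith
      · rw [min_eq_right h] at h2; linarith }

theorem absLS_of_ne {f : LS F} (hf : f ≠ 0) : absLS f = (2 : ℝ) ^ (-ord f) := if_neg hf

/-- the uniformiser power -/
noncomputable def X (n : ℤ) : LS F := (HahnSeries.single n (1 : F) : HahnSeries ℤ F)

theorem cf_X (n i : ℤ) : cf (X n : LS F) i = if i = n then 1 else 0 := by
  change HahnSeries.coeff (HahnSeries.single n (1 : F)) i = _
  classical
  rw [HahnSeries.coeff_single]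
  congr

theorem X_ne (n : ℤ) : (X n : LS F) ≠ 0 := by
  intro h
  have h1 := cf_X (F := F) n n
  rw [h, if_pos rfl, cf_zero] at h1
  exact zero_ne_one h1

theorem ord_X (n : ℤ) : ord (X n : LS F) = n :=
  HahnSeries.order_single (one_ne_zero)

theorem X_add (m n : ℤ) : (X (m + n) : LS F) = X m * X n := by
  change (HahnSeries.single (m + n) (1 : F)) = HahnSeries.single m (1 : F) * HahnSeries.single n (1 : F)
  rw [HahnSeries.single_mul_single, one_mul]

theorem X_zero : (X 0 : LS F) = 1 := rfl

noncomputable instance : NontriviallyNormedField (LS F) :=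
  { (absLS (F := F)).toNormedField with
    non_trivial := ⟨X (-1), by
      change 1 < absLS (X (-1) : LS F)
      rw [absLS_of_ne (X_ne _), ord_X]
      norm_num⟩ }

theorem norm_def (f : LS F) : ‖f‖ = absLS f := rfl

theorem norm_eq {f : LS F} (hf : f ≠ 0) : ‖f‖ = (2 : ℝ) ^ (-ord f) := by
  rw [norm_def, absLS_of_ne hf]

theorem norm_le_iff {f : LS F} {N : ℤ} : ‖f‖ ≤ (2 : ℝ) ^ (-N) ↔ ∀ i < N, cf f i = 0 := by
  by_cases hf : f = 0
  · subst hf
    rw [norm_zero]
    exact ⟨fun _ i _ => cf_zero i, fun _ => by positivity⟩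
  rw [norm_eq hf, zpow_le_zpow_iff_right₀ (by norm_num), neg_le_neg_iff]
  exact ⟨fun h i hi => cf_of_lt (lt_of_lt_of_le hi h), le_ord hf⟩

theorem norm_le_one_iff {f : LS F} : ‖f‖ ≤ 1 ↔ ∀ i < 0, cf f i = 0 := by
  have := norm_le_iff (f := f) (N := 0)
  simpa using this

instance : IsUltrametricDist (LS F) := by
  refine IsUltrametricDist.isUltrametricDist_of_forall_norm_add_le_max_norm fun f g => ?_
  by_cases hf : f = 0
  · subst hf; rw [zero_add]; exact le_max_right _ _
  by_cases hg : g = 0
  · subst hg; rw [add_zero]; exact le_max_left _ _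
  have h1 : ‖f + g‖ ≤ (2 : ℝ) ^ (-min (ord f) (ord g)) := norm_le_iff.2 fun i hi => by
    rw [cf_add, cf_of_lt (lt_of_lt_of_le hi (min_le_left _ _)),
      cf_of_lt (lt_of_lt_of_le hi (min_le_right _ _)), add_zero]
  rcases le_total (ord f) (ord g) with h | h
  · rw [min_eq_left h, ← norm_eq hf] at h1; exact h1.trans (le_max_left _ _)
  · rw [min_eq_right h, ← norm_eq hg] at h1; exact h1.trans (le_max_right _ _)

theorem norm_X (n : ℤ) : ‖(X n : LS F)‖ = (2 : ℝ) ^ (-n) := by
  rw [norm_eq (X_ne n), ord_X]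

end basic

section proper

variable {F : Type} [Field F]

/-- power series -/
noncomputable def ps (c : ℕ → F) : LS F :=
  (HahnSeries.ofPowerSeries ℤ F (PowerSeries.mk c) : HahnSeries ℤ F)

theorem cf_ps (c : ℕ → F) (n : ℕ) : cf (ps c) n = c n := by
  change HahnSeries.coeff (HahnSeries.ofPowerSeries ℤ F (PowerSeries.mk c)) (n : ℤ) = _
  rw [HahnSeries.ofPowerSeries_apply_coeff, PowerSeries.coeff_mk]

theorem cf_ps_neg (c : ℕ → F) {i : ℤ} (hi : i < 0) : cf (ps c) i = 0 := by
  change HahnSeries.coeff (HahnSeries.ofPowerSeries ℤ F (PowerSeries.mk c)) i = _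
  rw [HahnSeries.ofPowerSeries_apply]
  refine HahnSeries.embDomain_notin_range ?_
  rintro ⟨n, hn⟩
  have h2 : ((n : ℕ) : ℤ) = i := hn
  omega

theorem ps_surj {f : LS F} (hf : ∀ i < 0, cf f i = 0) : ps (fun n => cf f n) = f := by
  refine ext_cf fun i => ?_
  rcases lt_or_ge i 0 with h | h
  · rw [cf_ps_neg _ h, hf i h]
  · obtain ⟨n, rfl⟩ := Int.eq_ofNat_of_zero_le h
    exact cf_ps _ n

theorem isCompact_ball [Finite F] : IsCompact (Metric.closedBall (0 : LS F) 1) := by
  let _ : TopologicalSpace F := ⊥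
  have hd : DiscreteTopology F := ⟨rfl⟩
  have hc : Continuous (ps : (ℕ → F) → LS F) := by
    rw [continuous_iff_continuousAt]
    intro c
    rw [ContinuousAt, Metric.tendsto_nhds]
    intro ε hε
    obtain ⟨N, hN⟩ := exists_pow_lt_of_lt_one hε (by norm_num : (1 / 2 : ℝ) < 1)
    have hev : ∀ᶠ c' in 𝓝 c, ∀ i ∈ Finset.range N, c' i = c i := by
      rw [Filter.eventually_all_finset]
      intro i _
      have h1 : ContinuousAt (fun c' : ℕ → F => c' i) c := (continuous_apply i).continuousAt
      have h2 := h1.eventually (show {c i} ∈ 𝓝 (c i) from by simp)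
      exact h2
    filter_upwards [hev] with c' hc'
    rw [dist_eq_norm]
    refine lt_of_le_of_lt ?_ hN
    have h3 : ‖ps c' - ps c‖ ≤ (2 : ℝ) ^ (-(N : ℤ)) := norm_le_iff.2 fun i hi => by
      rw [cf_sub]
      rcases lt_or_ge i 0 with h | h
      · rw [cf_ps_neg _ h, cf_ps_neg _ h, sub_zero]
      · obtain ⟨n, rfl⟩ := Int.eq_ofNat_of_zero_le h
        rw [cf_ps, cf_ps, hc' n (Finset.mem_range.2 (by exact_mod_cast hi)), sub_self]
    refine h3.trans (le_of_eq ?_)
    rw [zpow_neg, zpow_natCast, one_div, inv_pow]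
  have he : Metric.closedBall (0 : LS F) 1 = range (ps : (ℕ → F) → LS F) := by
    ext f
    rw [mem_closedBall_zero_iff, norm_le_one_iff]
    constructor
    · intro h
      exact ⟨_, ps_surj h⟩
    · rintro ⟨c, rfl⟩ i hi
      exact cf_ps_neg c hi
  rw [he]
  exact isCompact_range hc

instance [Finite F] : ProperSpace (LS F) := by
  have h1 : LocallyCompactSpace (LS F) :=
    isCompact_ball.locallyCompactSpace_of_mem_nhds_of_addGroup
      (Metric.closedBall_mem_nhds (0 : LS F) one_pos)
  exact ProperSpace.of_locallyCompactSpace (LS F)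

end proper

end Vale.Agent.P092.H678
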