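import Vale.Agent.P092.H678.SLt
import Vale.Agent.P092.SNP.Top

/-!
P092 (helper678), Team N: `SL_n(F[x])` and `PSL_n(F[x])`, `F` a finite field, `n ≥ 3`, in the class
`LatticeK (F((1/x)))`.
-/

set_option linter.all false

open Topology Filter Set

namespace Vale.Agent.P092.H678

open Matrix
open Vale.Agent.P092.H515.St Vale.Agent.P092.SR.St Vale.Agent.P092.SNP.St

/-- `F((X))` is a local field. -/
theorem locK_LS (F : Type) [Field F] : LocK (LS F) := LocK.ultra inferInstance

/-- `SL_n(F[x])`, `F` a finite field, `gcd(n, |F| - 1) = 1`, `n ≥ 3`. -/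
theorem latticeK_SLt (n : ℕ) (F : Type) [Field F] [Finite F] (hn : 3 ≤ n)
    (hc : Nat.Coprime n (Nat.card F - 1)) :
    LatticeK (LS F) (SpecialLinearGroup (Fin n) (Polynomial F)) :=
  SNP.latticeK_one (locK_LS F) hn
    (fun g hg => icc_sl (poly_root (by omega) hc) g hg) (empt n F)
    TypeK.sl empt_inj (isLattice_empt n F (by omega))

/-- `SL_n(𝔽_2[x])`, `n ≥ 3`. -/
theorem latticeK_SLt_two (n : ℕ) (hn : 3 ≤ n) :
    LatticeK (LS (ZMod 2)) (SpecialLinearGroup (Fin n) (Polynomial (ZMod 2))) :=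
  latticeK_SLt n (ZMod 2) hn (coprime_two n)

/-- The map `PSL_n(F[x]) → PSL_n(F((1/x)))`. -/
noncomputable def pempt (n : ℕ) (F : Type) [Field F] :
    SpecialLinearGroup (Fin n) (Polynomial F) ⧸
      Subgroup.center (SpecialLinearGroup (Fin n) (Polynomial F)) →*
    SpecialLinearGroup (Fin n) (LS F) ⧸ Subgroup.center (SpecialLinearGroup (Fin n) (LS F)) :=
  H387.N.pmap psi n

theorem pempt_inj (n : ℕ) (F : Type) [Field F] : Function.Injective (pempt n F) := by
  rw [injective_iff_map_eq_one]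
  intro g h
  obtain ⟨x, rfl⟩ := QuotientGroup.mk'_surjective _ g
  have h1 : QuotientGroup.mk' _ (SpecialLinearGroup.map psi x) =
      (1 : SpecialLinearGroup (Fin n) (LS F) ⧸ Subgroup.center (SpecialLinearGroup (Fin n) (LS F))) := h
  exact (QuotientGroup.eq_one_iff x).2
    (H387.N.mem_center_of_map psi psi_inj ((QuotientGroup.eq_one_iff _).1 h1))

theorem isLattice_pempt (n : ℕ) (F : Type) [Field F] [Finite F] (hn : 2 ≤ n) :
    H515.St.IsLattice (pempt n F).range := by
  have h0 := isLattice_empt n F hn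
  have hfin : IsCompact (Subgroup.center (SpecialLinearGroup (Fin n) (LS F)) :
      Set (SpecialLinearGroup (Fin n) (LS F))) := H387.N.finite_center.isCompact
  have hcl := hfin.isClosed
  have := h0.disc
  obtain ⟨π, hπ⟩ : ∃ π : SpecialLinearGroup (Fin n) (LS F) →*
      SpecialLinearGroup (Fin n) (LS F) ⧸ Subgroup.center (SpecialLinearGroup (Fin n) (LS F)),
      π = QuotientGroup.mk' _ := ⟨_, rfl⟩
  have hcont : Continuous π := by rw [hπ]; exact continuous_quotient_mk'
  have hr : (empt n F).range.map π = (pempt n F).range := by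
    ext x
    constructor
    · rintro ⟨_, ⟨g, rfl⟩, rfl⟩
      exact ⟨QuotientGroup.mk' _ g, by rw [hπ]; rfl⟩
    · rintro ⟨g, rfl⟩
      obtain ⟨y, rfl⟩ := QuotientGroup.mk'_surjective _ g
      exact ⟨_, ⟨y, rfl⟩, by rw [hπ]; rfl⟩
  rw [← hr]
  refine H793.lattice_map π hcont (by rw [hπ]; exact QuotientGroup.mk'_surjective _) h0
    (H793.discrete_map π (fun C hC => ?_) _)
  rw [hπ]
  exact H793.proper_mk _ hfin _ hC

/-- **`PSL_n(F[x])`**, `F` a finite field, `n ≥ 3`. -/
theorem latticeK_PSLt (n : ℕ) (F : Type) [Field F] [Finite F] (hn : 3 ≤ n) :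
    LatticeK (LS F) (SpecialLinearGroup (Fin n) (Polynomial F) ⧸
      Subgroup.center (SpecialLinearGroup (Fin n) (Polynomial F))) :=
  SNP.latticeK_one (locK_LS F) hn (fun g hg => icc_psl g hg) (pempt n F)
    TypeK.psl (pempt_inj n F) (isLattice_pempt n F (by omega))

end Vale.Agent.P092.H678
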