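import Vale.Agent.P092.H678.Gam

/-!
P092 (helper678): reduction theory for `SL_N(F[t])` in `SL_N(F((1/t)))`: every matrix is
`k · diag(X^a) · γ`, `k` integral, `γ ∈ SL_N(F[t])`.
-/

set_option linter.all false

open Topology Filter Set

namespace Vale.Agent.P092.H678

open scoped LaurentPolynomial
open Matrix

variable {N : ℕ} {F : Type} [Field F]

/-- power series as Laurent series -/
noncomputable def psH : PowerSeries F →+* LS F :=
  (HahnSeries.ofPowerSeries ℤ F : PowerSeries F →+* HahnSeries ℤ F)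

theorem cf_psH (p : PowerSeries F) : cf (psH p) 0 = PowerSeries.constantCoeff p := by
  have h := HahnSeries.ofPowerSeries_apply_coeff (Γ := ℤ) p 0
  rw [← PowerSeries.coeff_zero_eq_constantCoeff_apply]
  exact h

theorem exists_psH {f : LS F} (hf : ‖f‖ ≤ 1) : ∃ p : PowerSeries F, psH p = f :=
  ⟨PowerSeries.mk fun n => cf f n, ps_surj (norm_le_one_iff.1 hf)⟩

/-- The determinant of the reduction. -/
theorem det_cf {k : Matrix (Fin N) (Fin N) (LS F)} (hk : ∀ i j, ‖k i j‖ ≤ 1) :
    Matrix.det (Matrix.of fun i j => cf (k i j) 0) = cf k.det 0 := by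
  choose P hP using fun i j => exists_psH (hk i j)
  have h1 : k = (psH : PowerSeries F →+* LS F).mapMatrix (Matrix.of P) := by
    ext1 i j
    exact (hP i j).symm
  have h2 : (Matrix.of fun i j => cf (k i j) 0) =
      (PowerSeries.constantCoeff : PowerSeries F →+* F).mapMatrix (Matrix.of P) := by
    ext1 i j
    change cf (k i j) 0 = PowerSeries.constantCoeff (P i j)
    rw [← hP, cf_psH]
  rw [h2, h1, ← RingHom.map_det, ← RingHom.map_det, cf_psH]

theorem cf_mul_cst (f : LS F) (a : F) (m s : ℤ) :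
    cf (f * (cst a * X m)) s = cf f (s - m) * a := by
  rw [cst_mul_X]
  have h := HahnSeries.coeff_mul_single_add (r := a) (x := (f : HahnSeries ℤ F)) (a := s - m) (b := m)
  rw [sub_add_cancel] at h
  exact h

theorem cf_mul_X (f : LS F) (m s : ℤ) : cf (f * X m) s = cf f (s - m) := by
  have h := cf_mul_cst f 1 m s
  rwa [map_one, one_mul, mul_one] at h

theorem X_prod {ι : Type} (s : Finset ι) (a : ι → ℤ) : ∏ i ∈ s, (X (a i) : LS F) = X (∑ i ∈ s, a i) := by
  classical

  induction s using Finset.induction_on with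
  | empty => rw [Finset.prod_empty, Finset.sum_empty]; exact X_zero.symm
  | insert i s hi ih => rw [Finset.prod_insert hi, Finset.sum_insert hi, ih, X_add]

/-- `diag(X^a)`, `∑ a = 0`. -/
noncomputable def dg (a : Fin N → ℤ) (ha : ∑ i, a i = 0) : SLn N F :=
  ⟨Matrix.diagonal fun i => X (a i), by rw [Matrix.det_diagonal, X_prod, ha]; exact X_zero⟩

/-- The maximal compact subgroup. -/
def K₀ (N : ℕ) (F : Type) [Field F] : Subgroup (SLn N F) where
  carrier := {g | ∀ i j, ‖(g : Matrix (Fin N) (Fin N) (LS F)) i j‖ ≤ 1}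
  mul_mem' := by
    intro a b ha hb i j
    rw [Matrix.SpecialLinearGroup.coe_mul, Matrix.mul_apply]
    refine IsUltrametricDist.norm_sum_le_of_forall_le_of_nonneg zero_le_one fun l _ => ?_
    rw [norm_mul]
    exact mul_le_one₀ (ha i l) (norm_nonneg _) (hb l j)
  one_mem' := by
    intro i j
    rw [Matrix.SpecialLinearGroup.coe_one, Matrix.one_apply]
    split_ifs
    · rw [norm_one]
    · rw [norm_zero]; exact zero_le_one
  inv_mem' := by
    intro g hg i j
    rw [Matrix.SpecialLinearGroup.coe_inv, Matrix.adjugate_apply]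
    have h : ∀ A : Matrix (Fin N) (Fin N) (LS F), (∀ i j, ‖A i j‖ ≤ 1) → ‖A.det‖ ≤ 1 := by
      intro A hA
      rw [Matrix.det_apply]
      refine IsUltrametricDist.norm_sum_le_of_forall_le_of_nonneg zero_le_one fun σ _ => ?_
      have h1 : ‖∏ i, A (σ i) i‖ ≤ 1 := by
        rw [norm_prod]
        exact Finset.prod_le_one (fun i _ => norm_nonneg _) fun i _ => hA _ _
      rcases Int.units_eq_one_or (Equiv.Perm.sign σ) with h | h
      · rw [h, one_smul]; exact h1
      · rw [h, Units.neg_smul, one_smul, norm_neg]; exact h1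
    refine h _ fun a b => ?_
    rw [Matrix.updateRow_apply]
    split_ifs
    · rw [Pi.single_apply]
      split_ifs
      · rw [norm_one]
      · rw [norm_zero]; exact zero_le_one
    · exact hg a b

theorem mem_K₀ {g : SLn N F} : g ∈ K₀ N F ↔ ∀ i j, ‖(g : Matrix (Fin N) (Fin N) (LS F)) i j‖ ≤ 1 :=
  Iff.rfl

/-- The elementary column operation. -/
theorem det_updateCol_one {A : Type} [CommRing A] (j : Fin N) (w : Fin N → A) :
    (Matrix.updateCol (1 : Matrix (Fin N) (Fin N) A) j w).det = w j := by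
  rw [← Matrix.cramer_apply, Matrix.cramer_one]
  rfl

theorem mul_updateCol_one {A : Type} [CommRing A] (M : Matrix (Fin N) (Fin N) A) (j : Fin N)
    (w : Fin N → A) (i l : Fin N) :
    (M * Matrix.updateCol (1 : Matrix (Fin N) (Fin N) A) j w) i l =
      if l = j then ∑ s, M i s * w s else M i l := by
  rw [Matrix.mul_apply]
  by_cases h : l = j
  · subst h
    rw [if_pos rfl]
    exact Finset.sum_congr rfl fun s _ => by rw [Matrix.updateCol_self]
  · rw [if_neg h]
    rw [Finset.sum_eq_single l]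
    · rw [Matrix.updateCol_ne h, Matrix.one_apply_eq, mul_one]
    · intro s _ hs
      rw [Matrix.updateCol_ne h, Matrix.one_apply_ne hs, mul_zero]
    · intro h'
      exact absurd (Finset.mem_univ _) h'

/-- The key step and the induction. -/
theorem reduce (D : ℕ) : ∀ (M : SLn N F) (d : Fin N → ℤ), (∑ j, d j = D) →
    (∀ i j, ‖(M : Matrix (Fin N) (Fin N) (LS F)) i j‖ ≤ (2 : ℝ) ^ (d j)) →
    ∃ (γ : SpecialLinearGroup (Fin N) F[T;T⁻¹]) (k : SLn N F) (a : Fin N → ℤ) (ha : ∑ i, a i = 0),
      (emb N F γ).1 ∈ K₀ N F ∧ k ∈ K₀ N F ∧ M * (emb N F γ).2 = k * dg a ha := by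
  induction D with
  | zero =>
    intro M d hd hM
    have ha : ∑ i, -d i = 0 := by
      rw [Finset.sum_neg_distrib, hd]; rfl
    refine ⟨1, M * (dg (fun i => -d i) ha)⁻¹, fun i => -d i, ha, ?_, ?_, ?_⟩
    · rw [map_one]; exact one_mem _
    · have hd' : ∑ i, d i = 0 := by rw [hd]; rfl
      have h1 : (dg (F := F) (fun i => -d i) ha)⁻¹ = dg d hd' := by
        rw [inv_eq_iff_mul_eq_one]
        refine Subtype.ext ?_
        rw [Matrix.SpecialLinearGroup.coe_mul]
        change Matrix.diagonal _ * Matrix.diagonal _ = _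
        rw [Matrix.diagonal_mul_diagonal]
        have : (fun i => (X (-d i) * X (d i) : LS F)) = 1 := by
          funext i
          rw [← X_add, neg_add_cancel]
          exact X_zero
        rw [this]
        exact Matrix.diagonal_one
      rw [h1, mem_K₀]
      intro i j
      rw [Matrix.SpecialLinearGroup.coe_mul]
      change ‖((M : Matrix (Fin N) (Fin N) (LS F)) *
        Matrix.diagonal (fun i => (X (d i) : LS F)) : Matrix (Fin N) (Fin N) (LS F)) i j‖ ≤ 1
      rw [Matrix.mul_diagonal, norm_mul, norm_X]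
      calc _ ≤ (2 : ℝ) ^ (d j) * 2 ^ (-d j) := mul_le_mul_of_nonneg_right (hM i j) (by positivity)
        _ = 1 := by rw [← zpow_add₀ two_ne_zero, add_neg_cancel, zpow_zero]
    · rw [map_one, Prod.snd_one, mul_one, inv_mul_cancel_right]
  | succ D ih =>
    intro M d hd hM
    -- the reduction is singular
    obtain ⟨L, hL⟩ : ∃ L : Matrix (Fin N) (Fin N) F, L = Matrix.of fun i j =>
      cf ((M : Matrix (Fin N) (Fin N) (LS F)) i j) (-d j) := ⟨_, rfl⟩
    have hdet : L.det = 0 := by
      obtain ⟨k, hk⟩ : ∃ k : Matrix (Fin N) (Fin N) (LS F), k =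
        (M : Matrix (Fin N) (Fin N) (LS F)) * Matrix.diagonal (fun j => X (d j)) := ⟨_, rfl⟩
      have hk1 : ∀ i j, k i j = (M : Matrix (Fin N) (Fin N) (LS F)) i j * X (d j) := by
        intro i j; rw [hk, Matrix.mul_diagonal]
      have hkn : ∀ i j, ‖k i j‖ ≤ 1 := by
        intro i j
        rw [hk1, norm_mul, norm_X]
        calc _ ≤ (2 : ℝ) ^ (d j) * 2 ^ (-d j) := mul_le_mul_of_nonneg_right (hM i j) (by positivity)
          _ = 1 := by rw [← zpow_add₀ two_ne_zero, add_neg_cancel, zpow_zero]
      have h1 := det_cf hkn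
      have h2 : (Matrix.of fun i j => cf (k i j) 0) = L := by
        rw [hL]
        ext1 i j
        change cf (k i j) 0 = cf _ (-d j)
        rw [hk1, cf_mul_X, zero_sub]
      rw [h2] at h1
      have h3 : k.det = X ((D : ℤ) + 1) := by
        rw [hk, Matrix.det_mul, Matrix.det_diagonal, X_prod, hd]
        have : Matrix.det (M : Matrix (Fin N) (Fin N) (LS F)) = 1 := M.2
        rw [this, one_mul]
        push_cast
        rfl
      rw [h1, h3, cf_X, if_neg (by omega)]
    obtain ⟨v, hv, hLv⟩ := Matrix.exists_mulVec_eq_zero_iff.2 hdet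
    -- the pivot
    classical
    obtain ⟨j₀, hj₀, hmax⟩ := Finset.exists_max_image (Finset.univ.filter fun j => v j ≠ 0) d (by
      by_contra hne
      rw [Finset.not_nonempty_iff_eq_empty, Finset.filter_eq_empty_iff] at hne
      exact hv (funext fun j => not_not.1 (hne (Finset.mem_univ j))))
    rw [Finset.mem_filter] at hj₀
    have hvj := hj₀.2
    obtain ⟨c, hc⟩ : ∃ c : Fin N → F, c = fun j => v j / v j₀ := ⟨_, rfl⟩
    have hc0 : c j₀ = 1 := by rw [hc]; exact div_self hvj
    have hcd : ∀ j, c j ≠ 0 → d j ≤ d j₀ := by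
      intro j hj
      refine hmax j (Finset.mem_filter.2 ⟨Finset.mem_univ j, fun h => hj ?_⟩)
      rw [hc]
      simp only [h, zero_div]
    have hLc : ∀ i, ∑ s, L i s * c s = 0 := by
      intro i
      have h1 := congrFun hLv i
      have h2 : ∑ s, L i s * v s = 0 := h1
      have h3 : ∑ s, L i s * c s = (∑ s, L i s * v s) / v j₀ := by
        rw [Finset.sum_div]
        exact Finset.sum_congr rfl fun s _ => by rw [hc]; ring
      rw [h3, h2, zero_div]
    obtain ⟨w, hw⟩ : ∃ w : Fin N → F[T;T⁻¹], w = fun j =>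
      LaurentPolynomial.C (c j) * LaurentPolynomial.T (d j₀ - d j) := ⟨_, rfl⟩
    have hw0 : w j₀ = 1 := by
      rw [hw]
      simp only [hc0, sub_self, LaurentPolynomial.T_zero, map_one, mul_one]
    have hwφ₁ : ∀ j, φ₁ (w j) = cst (c j) * X (d j₀ - d j) := by
      intro j
      rw [hw, map_mul, φ₁_T]
      congr 1
      rw [φ₁, LaurentPolynomial.eval₂_C]
    have hwφ₂ : ∀ j, φ₂ (w j) = cst (c j) * X (d j - d j₀) := by
      intro j
      rw [hw, map_mul, φ₂_T, neg_sub]
      congr 1
      rw [φ₂_apply, LaurentPolynomial.invert_C, φ₁, LaurentPolynomial.eval₂_C]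
    obtain ⟨γ, hγ⟩ : ∃ γ : SpecialLinearGroup (Fin N) F[T;T⁻¹], (γ : Matrix (Fin N) (Fin N) F[T;T⁻¹]) =
        Matrix.updateCol (1 : Matrix (Fin N) (Fin N) F[T;T⁻¹]) j₀ w :=
      ⟨⟨Matrix.updateCol (1 : Matrix (Fin N) (Fin N) F[T;T⁻¹]) j₀ w, by
        rw [det_updateCol_one, hw0]⟩, rfl⟩
    have hγ1 : (emb N F γ).1 ∈ K₀ N F := by
      rw [mem_K₀]
      intro i j
      rw [emb_fst, hγ, Matrix.updateCol_apply]
      split_ifs with h
      · rw [hwφ₁]
        by_cases hci : c i = 0
        · rw [hci, map_zero, zero_mul, norm_zero]; exact zero_le_one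
        · rw [norm_le_one_iff]
          intro s hs
          rw [cf_cst_mul_X, if_neg]
          have := hcd i hci
          omega
      · rw [← one_apply₁, Matrix.one_apply]
        split_ifs
        · rw [norm_one]
        · rw [norm_zero]; exact zero_le_one
    obtain ⟨d', hd'⟩ : ∃ d' : Fin N → ℤ, d' = fun j => if j = j₀ then d j₀ - 1 else d j := ⟨_, rfl⟩
    have hsum : ∑ j, d' j = D := by
      have h1 : ∀ j, d' j = d j - if j = j₀ then 1 else 0 := by
        intro j
        rw [hd']
        by_cases h : j = j₀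
        · subst h; simp
        · simp [h]
      simp only [h1]
      rw [Finset.sum_sub_distrib, hd, Finset.sum_ite_eq' Finset.univ j₀, if_pos (Finset.mem_univ _)]
      push_cast
      ring
    have hM' : ∀ i j, ‖((M * (emb N F γ).2 : SLn N F) : Matrix (Fin N) (Fin N) (LS F)) i j‖ ≤
        (2 : ℝ) ^ (d' j) := by
      intro i j
      have h1 : ((emb N F γ).2 : Matrix (Fin N) (Fin N) (LS F)) =
          Matrix.updateCol (1 : Matrix (Fin N) (Fin N) (LS F)) j₀ (fun s => φ₂ (w s)) := by
        ext1 a b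
        rw [emb_snd, hγ, Matrix.updateCol_apply, Matrix.updateCol_apply]
        split_ifs with h
        · rfl
        · rw [← one_apply₂]
      rw [Matrix.SpecialLinearGroup.coe_mul, h1, mul_updateCol_one]
      by_cases h : j = j₀
      · subst h
        rw [if_pos rfl, hd']
        simp only [if_true]
        have h2 : (d j - 1 : ℤ) = -(1 - d j) := by ring
        rw [h2, norm_le_iff]
        intro s hs
        have h3 : cf (∑ l, (M : Matrix (Fin N) (Fin N) (LS F)) i l * φ₂ (w l)) s =
            ∑ l, cf ((M : Matrix (Fin N) (Fin N) (LS F)) i l) (s - (d l - d j)) * c l := by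
          have : ∀ (t : Finset (Fin N)),
              cf (∑ l ∈ t, (M : Matrix (Fin N) (Fin N) (LS F)) i l * φ₂ (w l)) s =
            ∑ l ∈ t, cf ((M : Matrix (Fin N) (Fin N) (LS F)) i l) (s - (d l - d j)) * c l := by
            intro t
            induction t using Finset.induction_on with
            | empty => rw [Finset.sum_empty, Finset.sum_empty]; exact cf_zero s
            | insert l t hl iht =>
              rw [Finset.sum_insert hl, Finset.sum_insert hl, cf_add, iht, hwφ₂, cf_mul_cst]
          exact this _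
        rw [h3]
        rcases lt_or_eq_of_le (show s ≤ -d j by omega) with h4 | h4
        · refine Finset.sum_eq_zero fun l _ => ?_
          have h5 : (2 : ℝ) ^ (d l) = 2 ^ (-(-d l)) := by rw [neg_neg]
          have h6 := hM i l
          rw [h5, norm_le_iff] at h6
          rw [h6 _ (by omega), zero_mul]
        · rw [h4]
          have h5 := hLc i
          rw [hL] at h5
          rw [← h5]
          refine Finset.sum_congr rfl fun l _ => ?_
          congr 2
          ring
      · rw [if_neg h, hd']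
        simp only [h, if_false]
        exact hM i j
    obtain ⟨γ', k, a, ha, h1, h2, h3⟩ := ih (M * (emb N F γ).2) d' hsum hM'
    refine ⟨γ * γ', k, a, ha, ?_, h2, ?_⟩
    · rw [map_mul, Prod.fst_mul]; exact (K₀ N F).mul_mem hγ1 h1
    · rw [map_mul, Prod.snd_mul, ← mul_assoc]; exact h3

/-- Every matrix can be reduced. -/
theorem exists_reduce (M : SLn N F) :
    ∃ (γ : SpecialLinearGroup (Fin N) F[T;T⁻¹]) (k : SLn N F) (a : Fin N → ℤ) (ha : ∑ i, a i = 0),
      (emb N F γ).1 ∈ K₀ N F ∧ k ∈ K₀ N F ∧ M * (emb N F γ).2 = k * dg a ha := by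
  obtain ⟨R, hR⟩ : ∃ R : ℝ, ∀ i j, ‖(M : Matrix (Fin N) (Fin N) (LS F)) i j‖ ≤ R := by
    obtain ⟨R, hR⟩ := (Set.finite_range (fun p : Fin N × Fin N =>
      ‖(M : Matrix (Fin N) (Fin N) (LS F)) p.1 p.2‖)).bddAbove
    exact ⟨R, fun i j => hR ⟨(i, j), rfl⟩⟩
  obtain ⟨m, hm⟩ := pow_unbounded_of_one_lt R (by norm_num : (1 : ℝ) < 2)
  refine reduce (N * m) M (fun _ => (m : ℤ)) ?_ fun i j => ?_
  · rw [Finset.sum_const, Finset.card_univ, Fintype.card_fin]
    push_cast
    rw [nsmul_eq_mul]
  · refine (hR i j).trans (hm.le.trans (le_of_eq ?_))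
    rw [zpow_natCast]

end Vale.Agent.P092.H678
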