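import Vale.Agent.P092.H678.LS

/-!
P092 (helper678): the ring `F[t, 1/t]` and its two embeddings into `F((X))`, `t ↦ X` and `t ↦ 1/X`.
-/

set_option linter.all false

open Topology Filter Set

namespace Vale.Agent.P092.H678

open scoped LaurentPolynomial

variable {F : Type} [Field F]

/-- The uniformiser as a unit. -/
noncomputable def Xu : (LS F)ˣ where
  val := X 1
  inv := X (-1)
  val_inv := by rw [← X_add]; exact X_zero
  inv_val := by rw [← X_add]; exact X_zero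

theorem Xu_zpow (n : ℤ) : ((Xu ^ n : (LS F)ˣ) : LS F) = X n := by
  induction n using Int.induction_on with
  | zero => rw [zpow_zero]; exact X_zero.symm
  | succ n ih => rw [zpow_add_one, Units.val_mul, ih, X_add]; rfl
  | pred n ih => rw [zpow_sub_one, Units.val_mul, ih, sub_eq_add_neg, X_add]; rfl

/-- the constants -/
noncomputable def cst : F →+* LS F := (HahnSeries.C : F →+* HahnSeries ℤ F)

theorem cst_mul_X (a : F) (n : ℤ) :
    (cst a * X n : LS F) = (HahnSeries.single n a : HahnSeries ℤ F) := by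
  have h : (HahnSeries.single 0 a * HahnSeries.single n (1 : F) : HahnSeries ℤ F) =
      HahnSeries.single n a := by
    rw [HahnSeries.single_mul_single, mul_one, zero_add]
  exact h

theorem cf_cst_mul_X (a : F) (n i : ℤ) : cf (cst a * X n : LS F) i = if i = n then a else 0 := by
  rw [cst_mul_X]
  change HahnSeries.coeff (HahnSeries.single n a : HahnSeries ℤ F) i = _
  classical
  rw [HahnSeries.coeff_single]
  congr

/-- the first embedding -/
noncomputable def φ₁ : F[T;T⁻¹] →+* LS F := LaurentPolynomial.eval₂ cst Xu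

theorem cf_φ₁ (p : F[T;T⁻¹]) (i : ℤ) : cf (φ₁ p) i = p.coeff i := by
  induction p using LaurentPolynomial.induction_on' with
  | add p q hp hq =>
    rw [map_add, cf_add, hp, hq]
    rfl
  | C_mul_T n a =>
    rw [φ₁, LaurentPolynomial.eval₂_C_mul_T, Xu_zpow, cf_cst_mul_X,
      ← LaurentPolynomial.single_eq_C_mul_T, AddMonoidAlgebra.coeff_single]
    classical
    rw [Finsupp.single_apply]
    by_cases h : i = n
    · rw [if_pos h, if_pos h.symm]
    · rw [if_neg h, if_neg (fun h' => h h'.symm)]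

theorem φ₁_inj : Function.Injective (φ₁ : F[T;T⁻¹] →+* LS F) := by
  intro p q h
  refine LaurentPolynomial.ext fun i => ?_
  rw [← cf_φ₁, ← cf_φ₁, h]

/-- the second embedding -/
noncomputable def φ₂ : F[T;T⁻¹] →+* LS F :=
  φ₁.comp (LaurentPolynomial.invert : F[T;T⁻¹] ≃ₐ[F] F[T;T⁻¹]).toRingEquiv.toRingHom

theorem φ₂_apply (p : F[T;T⁻¹]) : φ₂ p = φ₁ (LaurentPolynomial.invert p) := rfl

theorem cf_φ₂ (p : F[T;T⁻¹]) (i : ℤ) : cf (φ₂ p) i = p.coeff (-i) := by
  rw [φ₂_apply, cf_φ₁, LaurentPolynomial.invert_apply]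

theorem φ₂_inj : Function.Injective (φ₂ : F[T;T⁻¹] →+* LS F) := by
  intro p q h
  refine LaurentPolynomial.ext fun i => ?_
  have h1 := cf_φ₂ p (-i)
  have h2 := cf_φ₂ q (-i)
  rw [neg_neg] at h1 h2
  rw [← h1, ← h2, h]

theorem φ₁_T (n : ℤ) : φ₁ (LaurentPolynomial.T n : F[T;T⁻¹]) = X n := by
  rw [φ₁, LaurentPolynomial.eval₂_T, Xu_zpow]

theorem φ₂_T (n : ℤ) : φ₂ (LaurentPolynomial.T n : F[T;T⁻¹]) = X (-n) := by
  rw [φ₂_apply, LaurentPolynomial.invert_T, φ₁_T]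

/-- Discreteness. -/
theorem eq_zero_of_small {p : F[T;T⁻¹]} (h1 : ‖φ₁ p‖ ≤ 2⁻¹) (h2 : ‖φ₂ p‖ ≤ 1) : p = 0 := by
  refine LaurentPolynomial.ext fun i => ?_
  have h1' : ‖φ₁ p‖ ≤ (2 : ℝ) ^ (-(1 : ℤ)) := by simpa using h1
  rw [norm_le_iff] at h1'
  rw [norm_le_one_iff] at h2
  rcases lt_or_ge i 1 with h | h
  · rw [← cf_φ₁, h1' i h]; rfl
  · have h3 := h2 (-i) (by omega)
    rw [cf_φ₂, neg_neg] at h3
    rw [h3]; rfl

/-- The truncation: every Laurent series is a Laurent polynomial modulo `X^N O`. -/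
theorem exists_trunc (f : LS F) (N : ℤ) :
    ∃ p : F[T;T⁻¹], (∀ i < N, p.coeff i = cf f i) ∧ (∀ i, N ≤ i → p.coeff i = 0) := by
  classical
  refine ⟨AddMonoidAlgebra.ofCoeff (Finsupp.onFinset (Finset.Ico (ord f) N)
    (fun i => if i < N then cf f i else 0) ?_), ?_, ?_⟩
  · intro i hi
    rw [Finset.mem_Ico]
    by_contra hc
    apply hi
    by_cases h : i < N
    · rw [if_pos h]
      refine cf_of_lt ?_
      by_contra h'
      exact hc ⟨not_lt.1 h', h⟩
    · rw [if_neg h]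
  · intro i hi
    change (if i < N then cf f i else 0) = _
    rw [if_pos hi]
  · intro i hi
    change (if i < N then cf f i else 0) = _
    rw [if_neg (not_lt.2 hi)]

theorem exists_approx₁ (f : LS F) (N : ℤ) : ∃ p : F[T;T⁻¹], ‖φ₁ p - f‖ ≤ (2 : ℝ) ^ (-N) := by
  obtain ⟨p, hp, _⟩ := exists_trunc f N
  refine ⟨p, norm_le_iff.2 fun i hi => ?_⟩
  rw [cf_sub, cf_φ₁, hp i hi, sub_self]

theorem exists_approx₂ (f : LS F) (N : ℤ) : ∃ p : F[T;T⁻¹], ‖φ₂ p - f‖ ≤ (2 : ℝ) ^ (-N) := by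
  obtain ⟨p, hp⟩ := exists_approx₁ f N
  refine ⟨LaurentPolynomial.invert p, ?_⟩
  have : φ₂ (LaurentPolynomial.invert p) = φ₁ p := by
    rw [φ₂_apply]
    congr 1
    exact LaurentPolynomial.involutive_invert p
  rw [this]
  exact hp

theorem exists_zpow_lt {ε : ℝ} (hε : 0 < ε) : ∃ N : ℕ, (2 : ℝ) ^ (-(N : ℤ)) < ε := by
  obtain ⟨N, hN⟩ := exists_pow_lt_of_lt_one hε (by norm_num : (1 / 2 : ℝ) < 1)
  refine ⟨N, lt_of_eq_of_lt ?_ hN⟩
  rw [zpow_neg, zpow_natCast, one_div, inv_pow]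

theorem denseRange_φ₁ : DenseRange (φ₁ : F[T;T⁻¹] →+* LS F) := by
  rw [Metric.denseRange_iff]
  intro f ε hε
  obtain ⟨N, hN⟩ := exists_zpow_lt hε
  obtain ⟨p, hp⟩ := exists_approx₁ f N
  refine ⟨p, ?_⟩
  rw [dist_comm, dist_eq_norm]
  exact lt_of_le_of_lt hp hN

theorem denseRange_φ₂ : DenseRange (φ₂ : F[T;T⁻¹] →+* LS F) := by
  rw [Metric.denseRange_iff]
  intro f ε hε
  obtain ⟨N, hN⟩ := exists_zpow_lt hε
  obtain ⟨p, hp⟩ := exists_approx₂ f N
  refine ⟨p, ?_⟩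
  rw [dist_comm, dist_eq_norm]
  exact lt_of_le_of_lt hp hN

end Vale.Agent.P092.H678
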